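import Mathlib

set_option autoImplicit false

namespace Crest.Agent.LE

variable {V : Type} [NormedAddCommGroup V] [NormedSpace ℝ V]

/-- piecewise linear interpolation -/
noncomputable def I1 (t : ℝ) (E : ℤ → V) : V :=
  (1 - Int.fract t) • E ⌊t⌋ + Int.fract t • E (⌊t⌋ + 1)

theorem I1_sub (t : ℝ) (E E' : ℤ → V) : I1 t (fun u => E u - E' u) = I1 t E - I1 t E' := by
  unfold I1; module

theorem I1_const (t : ℝ) (v : V) : I1 t (fun _ => v) = v := by
  unfold I1; module

theorem I1_le (t : ℝ) (E : ℤ → V) {M : ℝ} (h : ∀ u : ℤ, |t - u| ≤ 1 → ‖E u‖ ≤ M) :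
    ‖I1 t E‖ ≤ M := by
  have f0 := Int.fract_nonneg t
  have f1 := Int.fract_lt_one t
  have e := Int.self_sub_floor t
  have h1 := h ⌊t⌋ (by rw [e, abs_le]; constructor <;> linarith)
  have h2 := h (⌊t⌋ + 1) (by push_cast; rw [abs_le]; constructor <;> linarith)
  refine (norm_add_le _ _).trans ?_
  rw [norm_smul, norm_smul, Real.norm_of_nonneg f0, Real.norm_of_nonneg (by linarith)]
  nlinarith

theorem I1_eq (t : ℝ) (E : ℤ → V) (n : ℤ) (h0 : (n : ℝ) ≤ t) (h1 : t ≤ n + 1) :
    I1 t E = E n + (t - n) • (E (n + 1) - E n) := by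
  rcases eq_or_lt_of_le h1 with h | h
  · have : t = ((n + 1 : ℤ) : ℝ) := by push_cast; exact h
    unfold I1
    rw [this, Int.fract_intCast, Int.floor_intCast]; push_cast; module
  · have : ⌊t⌋ = n := Int.floor_eq_iff.2 ⟨h0, h⟩
    unfold I1
    rw [← Int.self_sub_floor, this]; module

theorem I1_var (t t' : ℝ) (E : ℤ → V) {M : ℝ} (h : ∀ u, ‖E u‖ ≤ M) :
    ‖I1 t E - I1 t' E‖ ≤ 2 * |t - t'| * M := by
  have hM : 0 ≤ M := (norm_nonneg _).trans (h 0)
  have same : ∀ (n : ℤ) (s s' : ℝ), (n : ℝ) ≤ s → s ≤ n + 1 → (n : ℝ) ≤ s' → s' ≤ n + 1 →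
      ‖I1 s E - I1 s' E‖ ≤ 2 * |s - s'| * M := by
    intro n s s' a b c d
    rw [I1_eq s E n a b, I1_eq s' E n c d, add_sub_add_left_eq_sub, ← sub_smul, norm_smul,
      sub_sub_sub_cancel_right, Real.norm_eq_abs]
    have := (norm_sub_le (E (n + 1)) (E n)).trans (add_le_add (h _) (h _))
    nlinarith [abs_nonneg (s - s')]
  have key : ∀ s s' : ℝ, s ≤ s' → ‖I1 s E - I1 s' E‖ ≤ 2 * |s - s'| * M := by
    intro s s' hs
    have a1 := Int.floor_le s
    have a2 := (Int.lt_floor_add_one s).le
    rcases le_or_gt s' (⌊s⌋ + 1) with h1 | h1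
    · exact same ⌊s⌋ s s' a1 a2 (a1.trans hs) h1
    rcases le_or_gt s' (⌊s⌋ + 1 + 1) with h2 | h2
    · have b1 := same ⌊s⌋ s (⌊s⌋ + 1) a1 a2 (by linarith) le_rfl
      have b2 := same (⌊s⌋ + 1) (⌊s⌋ + 1) s' (by push_cast; rfl) (by push_cast; linarith)
        (by push_cast; exact h1.le) (by push_cast; exact h2)
      have b3 := norm_sub_le_norm_sub_add_norm_sub (I1 s E) (I1 (⌊s⌋ + 1) E) (I1 s' E)
      rw [abs_of_nonpos (by linarith)] at b1 b2 ⊢
      linarith
    · have b1 := I1_le s E fun u _ => h u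
      have b2 := I1_le s' E fun u _ => h u
      refine (norm_sub_le _ _).trans ?_
      rw [abs_of_nonpos (by linarith)]
      nlinarith
  rcases le_total t t' with h1 | h1
  · exact key t t' h1
  · rw [norm_sub_rev, abs_sub_comm]; exact key t' t h1

/-- multilinear interpolation -/
noncomputable def IL : List ℝ → (List ℤ → V) → V
  | [], E => E []
  | t :: ts, E => I1 t fun u => IL ts fun us => E (u :: us)

theorem IL_sub (ts : List ℝ) (E E' : List ℤ → V) :
    IL ts (fun u => E u - E' u) = IL ts E - IL ts E' := by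
  induction ts generalizing E E' with
  | nil => rfl
  | cons t ts ih => simp only [IL, ih, I1_sub]

theorem IL_const (ts : List ℝ) (v : V) : IL ts (fun _ => v) = v := by
  induction ts with
  | nil => rfl
  | cons t ts ih => simp only [IL, ih, I1_const]

theorem IL_le (ts : List ℝ) (E : List ℤ → V) {M : ℝ}
    (h : ∀ us : List ℤ, List.Forall₂ (fun (t : ℝ) (u : ℤ) => |t - u| ≤ 1) ts us → ‖E us‖ ≤ M) :
    ‖IL ts E‖ ≤ M := by
  induction ts generalizing E with
  | nil => exact h [] List.Forall₂.nil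
  | cons t ts ih => exact I1_le t _ fun u hu => ih _ fun us hus => h _ (List.Forall₂.cons hu hus)

theorem IL_var {α : Type} (l : List α) (f g : α → ℝ) (E : List ℤ → V) {M r : ℝ}
    (h : ∀ u, ‖E u‖ ≤ M) (hr : ∀ a ∈ l, |f a - g a| ≤ r) :
    ‖IL (l.map f) E - IL (l.map g) E‖ ≤ 2 * l.length * r * M := by
  have hM : 0 ≤ M := (norm_nonneg _).trans (h [])
  induction l generalizing E with
  | nil => simp [IL]
  | cons a l ih =>
    simp only [List.map_cons, IL, List.length_cons]
    have b1 := I1_var (f a) (g a) (fun u => IL (l.map f) fun us => E (u :: us))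
      (fun u => IL_le _ _ fun us _ => h _)
    have b2 : ‖I1 (g a) (fun u => IL (l.map f) fun us => E (u :: us)) -
        I1 (g a) (fun u => IL (l.map g) fun us => E (u :: us))‖ ≤ 2 * l.length * r * M := by
      rw [← I1_sub]
      exact I1_le _ _ fun u _ => ih _ (fun us => h _) fun b hb => hr b (by simp [hb])
    have b3 := hr a (by simp)
    refine (norm_sub_le_norm_sub_add_norm_sub _ _ _).trans ((add_le_add b1 b2).trans ?_)
    push_cast; nlinarith

/-- deviation from a cell -/
noncomputable def dev : List ℝ → List ℤ → ℝ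
  | [], [] => 0
  | t :: ts, u :: us => max |t - u| (dev ts us)
  | _, _ => 2

theorem dev_le_one {ts : List ℝ} {us : List ℤ}
    (h : List.Forall₂ (fun (t : ℝ) (u : ℤ) => |t - u| ≤ 1) ts us) : dev ts us ≤ 1 := by
  induction h with
  | nil => simp [dev]
  | cons h _ ih => exact max_le h ih

theorem dev_lt_two {ts : List ℝ} {us : List ℤ} (h : dev ts us < 2) :
    List.Forall₂ (fun (t : ℝ) (u : ℤ) => |t - u| < 2) ts us := by
  induction ts generalizing us with
  | nil => cases us with
    | nil => exact List.Forall₂.nil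
    | cons u us => simp [dev] at h
  | cons t ts ih => cases us with
    | nil => simp [dev] at h
    | cons u us =>
      simp only [dev, max_lt_iff] at h
      exact List.Forall₂.cons h.1 (ih h.2)

theorem dev_lip {α : Type} (l : List α) (f g : α → ℝ) (us : List ℤ) {r : ℝ} (h0 : 0 ≤ r)
    (hr : ∀ a ∈ l, |f a - g a| ≤ r) : |dev (l.map f) us - dev (l.map g) us| ≤ r := by
  induction l generalizing us with
  | nil => simpa using h0
  | cons a l ih => cases us with
    | nil => simpa [dev] using h0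
    | cons u us =>
      simp only [List.map_cons, dev]
      refine (abs_max_sub_max_le_max _ _ _ _).trans (max_le ?_
        (ih us fun b hb => hr b (by simp [hb])))
      refine (abs_abs_sub_abs_le_abs_sub _ _).trans ?_
      rw [sub_sub_sub_cancel_right]; exact hr a (by simp)

theorem dev_close {α : Type} (l : List α) (f g : α → ℝ) (us : List ℤ)
    (hf : dev (l.map f) us < 2) (hg : dev (l.map g) us < 2) : ∀ a ∈ l, |f a - g a| ≤ 4 := by
  induction l generalizing us with
  | nil => simp
  | cons a l ih => cases us with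
    | nil => simp [dev] at hf
    | cons u us =>
      simp only [List.map_cons, dev, max_lt_iff] at hf hg
      intro b hb
      rcases List.mem_cons.1 hb with rfl | hb
      · have := abs_lt.1 hf.1; have := abs_lt.1 hg.1
        rw [abs_le]; constructor <;> linarith
      · exact ih us hf.2 hg.2 b hb

theorem cells_finite (N : ℕ) (B : ℝ) :
    {us : List ℤ | ∃ ts : List ℝ, ts.length = N ∧ (∀ t ∈ ts, |t| ≤ B) ∧ dev ts us < 2}.Finite := by
  induction N with
  | zero =>
    refine (Set.finite_singleton []).subset ?_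
    rintro us ⟨ts, h1, -, h3⟩
    obtain rfl := List.length_eq_zero_iff.1 h1
    simpa using dev_lt_two h3
  | succ N ih =>
    refine (((Set.finite_Icc (-⌈B + 2⌉) ⌈B + 2⌉).prod ih).image fun p => p.1 :: p.2).subset ?_
    rintro us ⟨ts, h1, h2, h3⟩
    obtain ⟨t, ts, rfl⟩ := List.exists_cons_of_length_eq_add_one h1
    cases us with
    | nil => simp [dev] at h3
    | cons u us =>
      simp only [dev, max_lt_iff] at h3
      refine ⟨(u, us), ⟨?_, ts, by simpa using h1, fun s hs => h2 s (by simp [hs]), h3.2⟩, rfl⟩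
      have a1 := abs_lt.1 h3.1
      have a2 := abs_le.1 (h2 t (by simp))
      have a3 := Int.le_ceil (B + 2)
      constructor
      · have : ((-⌈B + 2⌉ : ℤ) : ℝ) ≤ u := by push_cast; linarith
        exact_mod_cast this
      · have : (u : ℝ) ≤ (⌈B + 2⌉ : ℤ) := by linarith
        exact_mod_cast this

end Crest.Agent.LE
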