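import Crest.Agent.LE.Conc
import Crest.Agent.LE.Interp

set_option autoImplicit false
open Filter Topology
open scoped ZeroAtInfty

namespace Crest.Agent.LE

/-- the real coordinates of depth `m` -/
noncomputable def coords (m : ℕ) : List (BB → ℝ) :=
  (List.range m).flatMap fun i => (fun b => (b i).2) :: (List.range m).map fun t b => (b i).1 t

theorem mem_coords {m : ℕ} {ξ : BB → ℝ} : ξ ∈ coords m ↔
    ∃ i < m, ξ = (fun b => (b i).2) ∨ ∃ t < m, ξ = fun b => (b i).1 t := by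
  simp only [coords, List.mem_flatMap, List.mem_range, List.mem_cons, List.mem_map, eq_comm]

theorem coords_len (m : ℕ) : (coords m).length = m * (m + 1) := by
  simp [coords, List.length_flatMap]

theorem coords_lip {m : ℕ} {ξ : BB → ℝ} (h : ξ ∈ coords m) (x y : BB) : |ξ x - ξ y| ≤ ‖x - y‖ := by
  obtain ⟨i, -, rfl | ⟨t, -, rfl⟩⟩ := mem_coords.1 h
  · exact snd_sub_le x y i
  · exact (lp.norm_apply_le_norm (by norm_num) ((x i).1 - (y i).1) t).trans (fst_sub_le x y i)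

theorem coords_bd {m : ℕ} {ξ : BB → ℝ} (h : ξ ∈ coords m) (b : Pt) {R : ℝ}
    (hR : ∀ j, (b.1 j).2 ≤ R) : |ξ b.1| ≤ 100 * R := by
  obtain ⟨i, -, rfl | ⟨t, -, rfl⟩⟩ := mem_coords.1 h
  · have := cone_nn b.2 i
    have := hR i
    simp only; rw [abs_of_nonneg (by assumption)]; linarith
  · have := lp.norm_apply_le_norm (by norm_num) (b.1 i).1 t
    have := b.2 i
    have := hR i
    simp only [Real.norm_eq_abs] at *; linarith

theorem coords_Q {m n : ℕ} (hn : m ≤ n) {ξ : BB → ℝ} (h : ξ ∈ coords m) (b : Pt) :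
    ξ (QQ n b).1 = ξ b.1 := by
  obtain ⟨i, hi, rfl | ⟨t, ht, rfl⟩⟩ := mem_coords.1 h
  · simp only [QQ_apply, if_pos (hi.trans_le hn)]
  · simp only [QQ_apply, if_pos (hi.trans_le hn), tr_apply, if_pos (ht.trans_le hn)]

theorem coords_P {m n : ℕ} (hn : m ≤ n) {ξ : BB → ℝ} (h : ξ ∈ coords m) (b : Pt) :
    ξ (PP n b).1 = ξ b.1 := by
  obtain ⟨i, hi, rfl | ⟨t, ht, rfl⟩⟩ := mem_coords.1 h
  · simp only [PP_apply, if_pos (hi.trans_le hn)]
  · simp only [PP_apply, if_pos (hi.trans_le hn)]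

theorem coords_loc {m n : ℕ} (hn : n ≤ m) (x y : Pt) {r : ℝ} (hr : 0 ≤ r)
    (h : ∀ ξ ∈ coords m, |ξ x.1 - ξ y.1| ≤ r) : dist (QQ n x) (QQ n y) ≤ (m + 1) * r := by
  rw [Pt.dist_eq]
  refine c0_norm_le _ (by positivity) fun i => ?_
  rw [ZeroAtInftyContinuousMap.sub_apply, QQ_apply, QQ_apply]
  have hnm : (n : ℝ) ≤ m := by exact_mod_cast hn
  have hm : (0 : ℝ) ≤ m := Nat.cast_nonneg m
  split_ifs with hi
  · rw [Prod.norm_def, Prod.fst_sub, Prod.snd_sub, tr_sub]
    refine max_le ((tr_norm_le n _ (r := r) fun t ht => ?_).trans (by nlinarith)) ?_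
    · exact h _ (mem_coords.2 ⟨i, hi.trans_le hn, Or.inr ⟨t, ht.trans_le hn, rfl⟩⟩)
    · exact (h _ (mem_coords.2 ⟨i, hi.trans_le hn, Or.inl rfl⟩)).trans (by nlinarith)
  · simp; positivity

noncomputable def lg (τ : ℝ) : ℝ := Real.log τ / 20000
noncomputable def TT (k : ℤ) : ℝ := Real.exp (20000 * (k + 2))
def mm (k : ℤ) : ℕ := (-k).toNat
noncomputable def WW (k : ℤ) : ℝ := ((coords (mm k)).length + 1) * TT k * 20000
noncomputable def pos (k : ℤ) (b : BB) : List ℝ := (coords (mm k)).map fun ξ => ξ b / WW k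
noncomputable def om (i : ℕ) (k : ℤ) (us : List ℤ) (b : BB) : ℝ :=
  max 0 (min 1 (2 - max |lg (b i).2 - k| (dev (pos k b) us)))
noncomputable def ee (i : ℕ) (k : ℤ) (us : List ℤ) (b : Pt) : L2 := om i k us b.1 • (b.1 i).1

theorem TT_pos (k : ℤ) : 0 < TT k := Real.exp_pos _

theorem WW_pos (k : ℤ) : 0 < WW k := by have := TT_pos k; unfold WW; positivity

theorem WW_ge (k : ℤ) : TT k * 20000 ≤ WW k := by
  have := TT_pos k
  have : (0 : ℝ) ≤ (coords (mm k)).length := Nat.cast_nonneg _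
  unfold WW; nlinarith

theorem lg_le {τ : ℝ} (h0 : 0 < τ) {k : ℤ} (h : |lg τ - k| ≤ 2) : τ ≤ TT k := by
  have := (abs_le.1 h).2
  unfold lg at this
  rw [TT, ← Real.log_le_iff_le_exp h0]; linarith

theorem lg_ge {τ : ℝ} (h0 : 0 < τ) {k : ℤ} (h : |lg τ - k| ≤ 2) :
    Real.exp (20000 * (k - 2)) ≤ τ := by
  have := (abs_le.1 h).1
  unfold lg at this
  rw [← Real.le_log_iff_exp_le h0]; linarith

theorem lg_lip {s t : ℝ} (hs : 0 < s) (hst : s ≤ t) : |lg s - lg t| * s ≤ |s - t| / 20000 := by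
  have h1 : Real.log t - Real.log s ≤ t / s - 1 := by
    rw [← Real.log_div (hs.trans_le hst).ne' hs.ne']
    exact Real.log_le_sub_one_of_pos (div_pos (hs.trans_le hst) hs)
  have h2 := Real.log_le_log hs hst
  unfold lg
  rw [← sub_div, abs_div, abs_of_pos (by norm_num : (0 : ℝ) < 20000),
    abs_of_nonpos (by linarith), abs_of_nonpos (by linarith)]
  have h3 : (t / s - 1) * s = t - s := by field_simp
  have h4 := mul_le_mul_of_nonneg_right h1 hs.le
  linarith

theorem pos_close (k : ℤ) (x y : BB) : ∀ ξ ∈ coords (mm k),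
    |ξ x / WW k - ξ y / WW k| ≤ ‖x - y‖ / WW k := fun ξ h => by
  rw [← sub_div, abs_div, abs_of_pos (WW_pos k)]
  exact div_le_div_of_nonneg_right (coords_lip h x y) (WW_pos k).le

theorem om_nn (i : ℕ) (k : ℤ) (us : List ℤ) (b : BB) : 0 ≤ om i k us b := le_max_left _ _

theorem om_le (i : ℕ) (k : ℤ) (us : List ℤ) (b : BB) : om i k us b ≤ 1 :=
  max_le zero_le_one (min_le_left _ _)

theorem om_supp {i : ℕ} {k : ℤ} {us : List ℤ} {b : BB} (h : om i k us b ≠ 0) :
    |lg (b i).2 - k| < 2 ∧ dev (pos k b) us < 2 := by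
  rw [← max_lt_iff]
  by_contra hc
  exact h (max_eq_left ((min_le_right _ _).trans (by linarith [not_lt.1 hc])))

theorem om_one {i : ℕ} {k : ℤ} {us : List ℤ} {b : BB} (h1 : |lg (b i).2 - k| ≤ 1)
    (h2 : dev (pos k b) us ≤ 1) : om i k us b = 1 := by
  have := max_le h1 h2
  unfold om
  rw [min_eq_left (by linarith), max_eq_right zero_le_one]

theorem om_lip (i : ℕ) (k : ℤ) (us : List ℤ) (x y : BB) :
    |om i k us x - om i k us y| ≤ max |lg (x i).2 - lg (y i).2| (‖x - y‖ / WW k) := by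
  have h0 : 0 ≤ max |lg (x i).2 - lg (y i).2| (‖x - y‖ / WW k) := le_max_of_le_left (abs_nonneg _)
  unfold om
  refine (abs_max_sub_max_le_max _ _ _ _).trans (max_le (by simpa using h0) ?_)
  refine (abs_min_sub_min_le_max _ _ _ _).trans (max_le (by simpa using h0) ?_)
  rw [sub_sub_sub_cancel_left, abs_sub_comm]
  refine (abs_max_sub_max_le_max _ _ _ _).trans (max_le_max ?_ ?_)
  · refine (abs_abs_sub_abs_le_abs_sub _ _).trans ?_
    rw [sub_sub_sub_cancel_right]
  · exact dev_lip _ _ _ us (div_nonneg (norm_nonneg _) (WW_pos k).le) (pos_close k x y)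

theorem ee_norm (i : ℕ) (k : ℤ) (us : List ℤ) (b : Pt) : ‖ee i k us b‖ ≤ ‖(b.1 i).1‖ := by
  rw [ee, norm_smul, Real.norm_of_nonneg (om_nn _ _ _ _)]
  exact mul_le_of_le_one_left (norm_nonneg _) (om_le _ _ _ _)

theorem ee_supp {i : ℕ} {k : ℤ} {us : List ℤ} {b : Pt} (h : ee i k us b ≠ 0) :
    (b.1 i).2 ≤ TT k ∧ Real.exp (20000 * (k - 2)) ≤ (b.1 i).2 ∧ dev (pos k b.1) us < 2 := by
  have h1 : om i k us b.1 ≠ 0 := fun h0 => h (by rw [ee, h0, zero_smul])
  have h2 : (b.1 i).1 ≠ 0 := fun h0 => h (by rw [ee, h0, smul_zero])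
  have h3 : 0 < (b.1 i).2 := lt_of_lt_of_le (by have := norm_pos_iff.2 h2; positivity) (b.2 i)
  exact ⟨lg_le h3 (om_supp h1).1.le, lg_ge h3 (om_supp h1).1.le, (om_supp h1).2⟩

theorem ee_bd (i : ℕ) (k : ℤ) (us : List ℤ) (b : Pt) : ‖ee i k us b‖ ≤ 100 * TT k := by
  by_cases h : ee i k us b = 0
  · rw [h, norm_zero]; have := TT_pos k; positivity
  · have := (ee_supp h).1
    have := ee_norm i k us b
    have := b.2 i
    linarith

theorem ee_lip (i : ℕ) (k : ℤ) (us : List ℤ) (x y : Pt) :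
    ‖ee i k us x - ee i k us y‖ ≤ 101 / 100 * dist x y := by
  have key : ∀ x y : Pt, (x.1 i).2 ≤ (y.1 i).2 →
      ‖ee i k us x - ee i k us y‖ ≤ 101 / 100 * dist x y := by
    intro x y hxy
    rw [Pt.dist_eq]
    have e : ee i k us x - ee i k us y = om i k us y.1 • ((x.1 i).1 - (y.1 i).1) +
        (om i k us x.1 - om i k us y.1) • (x.1 i).1 := by unfold ee; module
    have hd := norm_nonneg (x.1 - y.1)
    have a1 : ‖om i k us y.1 • ((x.1 i).1 - (y.1 i).1)‖ ≤ ‖x.1 - y.1‖ := by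
      rw [norm_smul, Real.norm_of_nonneg (om_nn _ _ _ _)]
      exact (mul_le_of_le_one_left (norm_nonneg _) (om_le _ _ _ _)).trans (fst_sub_le _ _ _)
    have a2 : ‖(om i k us x.1 - om i k us y.1) • (x.1 i).1‖ ≤ 1 / 100 * ‖x.1 - y.1‖ := by
      rw [norm_smul, Real.norm_eq_abs]
      rcases eq_or_lt_of_le (cone_nn x.2 i) with h0 | h0
      · have := x.2 i
        have h1 : ‖(x.1 i).1‖ = 0 := le_antisymm (by linarith) (norm_nonneg _)
        rw [h1, mul_zero]; positivity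
      by_cases hz : om i k us x.1 = 0 ∧ om i k us y.1 = 0
      · rw [hz.1, hz.2]; simp
      have hT : (x.1 i).2 ≤ TT k := by
        rcases not_and_or.1 hz with h | h
        · exact lg_le h0 (om_supp h).1.le
        · exact hxy.trans (lg_le (h0.trans_le hxy) (om_supp h).1.le)
      have b1 : |om i k us x.1 - om i k us y.1| * (x.1 i).2 ≤ ‖x.1 - y.1‖ / 20000 := by
        refine (mul_le_mul_of_nonneg_right (om_lip i k us x.1 y.1) h0.le).trans ?_
        rw [max_mul_of_nonneg _ _ h0.le]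
        refine max_le ((lg_lip h0 hxy).trans (by gcongr; exact snd_sub_le _ _ _)) ?_
        rw [div_mul_eq_mul_div, div_le_div_iff₀ (WW_pos k) (by norm_num), mul_assoc]
        exact mul_le_mul_of_nonneg_left ((by linarith : _ ≤ TT k * 20000).trans (WW_ge k)) hd
      have b2 := x.2 i
      have b3 := mul_le_mul_of_nonneg_left (show ‖(x.1 i).1‖ ≤ 100 * (x.1 i).2 by linarith)
        (abs_nonneg (om i k us x.1 - om i k us y.1))
      linarith
    rw [e]
    exact (norm_add_le _ _).trans (by linarith)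
  rcases le_total (x.1 i).2 (y.1 i).2 with h | h
  · exact key x y h
  · rw [norm_sub_rev, dist_comm]; exact key y x h

theorem ee_Q {i n n0 : ℕ} {k : ℤ} (hi : i < n) (hk : mm k ≤ n) (h0 : n0 ≤ n) (us : List ℤ)
    (h : L2) (b : Pt) :
    inner ℝ (tr n0 h) (ee i k us (QQ n b)) = inner ℝ (tr n0 h) (ee i k us b) := by
  have e1 : pos k (QQ n b).1 = pos k b.1 :=
    List.map_congr_left fun ξ hξ => by rw [coords_Q hk hξ]
  simp only [ee, om, e1, QQ_apply, if_pos hi, inner_smul_right]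
  rw [inner_tr, tr_tr h0, ← inner_tr]

theorem ee_P {i n : ℕ} {k : ℤ} (hi : i < n) (hk : mm k ≤ n) (us : List ℤ) (b : Pt) :
    ee i k us (PP n b) = ee i k us b := by
  have e1 : pos k (PP n b).1 = pos k b.1 :=
    List.map_congr_left fun ξ hξ => by rw [coords_P hk hξ]
  simp only [ee, om, e1, PP_apply, if_pos hi]

theorem ee_P0 {i n : ℕ} (k : ℤ) (hi : n ≤ i) (us : List ℤ) (b : Pt) :
    ee i k us (PP n b) = 0 := by
  simp only [ee, PP_apply, if_neg (not_lt.2 hi), Prod.fst_zero, smul_zero]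

theorem rad_tendsto : Tendsto (fun m : ℕ => ((m : ℝ) + 1) * (4 * WW (-(m : ℤ)))) atTop (𝓝 0) := by
  have h1 : Tendsto (fun m : ℕ => 80000 * Real.exp (-19997 * (m : ℝ) + 40003)) atTop (𝓝 0) := by
    have : Tendsto (fun m : ℕ => -19997 * (m : ℝ) + 40003) atTop atBot :=
      tendsto_atBot_add_const_right _ _
        (tendsto_natCast_atTop_atTop.const_mul_atTop_of_neg (by norm_num))
    simpa using (Real.tendsto_exp_atBot.comp this).const_mul 80000
  refine squeeze_zero (fun m => by have := WW_pos (-(m : ℤ)); positivity) (fun m => ?_) h1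
  have hm : (0 : ℝ) ≤ m := Nat.cast_nonneg m
  have e1 : mm (-(m : ℤ)) = m := by simp [mm]
  have a1 : (m : ℝ) + 1 ≤ Real.exp (m + 1) := by linarith [Real.add_one_le_exp ((m : ℝ) + 1)]
  have a2 : ((m : ℝ) + 1) ^ 3 ≤ Real.exp (m + 1) ^ 3 := by gcongr
  have a3 : Real.exp (-19997 * (m : ℝ) + 40003) = Real.exp (m + 1) ^ 3 * TT (-(m : ℤ)) := by
    rw [TT, ← Real.exp_nat_mul, ← Real.exp_add]; congr 1; push_cast; ring
  rw [a3, WW, e1, coords_len]
  push_cast
  have hT := TT_pos (-(m : ℤ))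
  have a4 : ((m : ℝ) + 1) * (m * (m + 1) + 1) ≤ Real.exp (m + 1) ^ 3 := le_trans (by nlinarith) a2
  nlinarith [mul_le_mul_of_nonneg_right a4 hT.le]

end Crest.Agent.LE
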