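import Mathlib

set_option autoImplicit false
open Filter Topology

namespace Crest.Agent.LE

/-- Abstract geometric setup. -/
structure Setup (X : Type) [MetricSpace X] where
  P : ℕ → X → X
  Q : ℕ → X → X
  τ : ℕ → X → ℝ
  QP : ∀ n J b, n ≤ J → Q n (P J b) = Q n b
  QQ : ∀ m n b, m ≤ n → Q m (Q n b) = Q m b
  PQ : ∀ J n b, P J (Q n b) = Q n (P J b)
  PP : ∀ J K b, P J (P K b) = P (min J K) b
  Plip : ∀ J x y, dist (P J x) (P J y) ≤ dist x y
  Qlip : ∀ n x y, dist (Q n x) (Q n y) ≤ dist x y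
  τP : ∀ j J b, τ j (P J b) = if j < J then τ j b else 0
  τQ : ∀ j n b, τ j (Q n b) = if j < n then τ j b else 0
  τlip : ∀ j x y, |τ j x - τ j y| ≤ dist x y
  τnn : ∀ j b, 0 ≤ τ j b
  τlim : ∀ b, Tendsto (fun j => τ j b) atTop (𝓝 0)
  loc : ∀ (F : X → ℝ) (L : ℝ),
    (∀ b, ∃ r > 0, ∀ x y, dist x b < r → dist y b < r → |F x - F y| ≤ L * dist x y) →
      ∀ x y, |F x - F y| ≤ L * dist x y
  rad : ∀ (c : X) (a l : ℝ), 0 < a → 1 < l → ∃ R : X → X,
    (∀ x y, dist (R x) (R y) ≤ l / (l - 1) * dist x y) ∧ (∀ x, dist x c ≤ a → R x = c) ∧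
      (∀ x, l * a ≤ dist x c → R x = x) ∧ ∀ x, dist (R x) x ≤ a

variable {X : Type}

/-- pairing of a finitely supported measure with a (vector valued) function -/
noncomputable def pr {E : Type} [AddCommGroup E] [Module ℝ E] (μ : X →₀ ℝ) (A : X → E) : E :=
  Finsupp.linearCombination ℝ A μ

section pr
variable {E : Type} [AddCommGroup E] [Module ℝ E]

theorem pr_single (b : X) (r : ℝ) (A : X → E) : pr (Finsupp.single b r) A = r • A b := by
  simp [pr]

theorem pr_add (μ ν : X →₀ ℝ) (A : X → E) : pr (μ + ν) A = pr μ A + pr ν A := by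
  simp [pr]

theorem pr_sub (μ ν : X →₀ ℝ) (A : X → E) : pr (μ - ν) A = pr μ A - pr ν A := by
  simp [pr]

theorem pr_smul (r : ℝ) (μ : X →₀ ℝ) (A : X → E) : pr (r • μ) A = r • pr μ A := by
  simp [pr]

theorem pr_zero (A : X → E) : pr (0 : X →₀ ℝ) A = 0 := by simp [pr]

theorem pr_finsum {ι : Type} (s : Finset ι) (μ : ι → X →₀ ℝ) (A : X → E) :
    pr (∑ i ∈ s, μ i) A = ∑ i ∈ s, pr (μ i) A := by
  simp [pr]

theorem pr_eq_sum (μ : X →₀ ℝ) (A : X → E) : pr μ A = ∑ b ∈ μ.support, μ b • A b := by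
  simp [pr, Finsupp.linearCombination_apply, Finsupp.sum]

theorem pr_fadd (μ : X →₀ ℝ) (A B : X → E) : pr μ (fun b => A b + B b) = pr μ A + pr μ B := by
  simp [pr_eq_sum, Finset.sum_add_distrib]

theorem pr_fsub (μ : X →₀ ℝ) (A B : X → E) : pr μ (fun b => A b - B b) = pr μ A - pr μ B := by
  simp [pr_eq_sum, smul_sub, Finset.sum_sub_distrib]

theorem pr_fsmul (μ : X →₀ ℝ) (r : ℝ) (A : X → E) : pr μ (fun b => r • A b) = r • pr μ A := by
  simp only [pr_eq_sum, Finset.smul_sum]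
  exact Finset.sum_congr rfl fun b _ => smul_comm _ _ _

theorem pr_fmul (μ : X →₀ ℝ) (r : ℝ) (A : X → ℝ) : pr μ (fun b => r * A b) = r * pr μ A :=
  pr_fsmul μ r A

theorem pr_fdiv (μ : X →₀ ℝ) (r : ℝ) (A : X → ℝ) : pr μ (fun b => A b / r) = pr μ A / r := by
  have := pr_fmul μ r⁻¹ A
  simp only [div_eq_inv_mul]; exact this

theorem pr_fsum {ι : Type} (μ : X →₀ ℝ) (s : Finset ι) (A : ι → X → E) :
    pr μ (fun b => ∑ i ∈ s, A i b) = ∑ i ∈ s, pr μ (A i) := by
  simp only [pr_eq_sum, Finset.smul_sum]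
  exact Finset.sum_comm

theorem pr_fzero (μ : X →₀ ℝ) : pr μ (fun _ => (0 : E)) = 0 := by simp [pr_eq_sum]

theorem pr_congr (μ : X →₀ ℝ) {A B : X → E} (h : ∀ b ∈ μ.support, A b = B b) :
    pr μ A = pr μ B := by
  simp only [pr_eq_sum]; exact Finset.sum_congr rfl fun b hb => by rw [h b hb]

theorem pr_comp (μ : X →₀ ℝ) (ρ : X → X) (A : X → E) :
    pr μ (fun b => A (ρ b)) = pr (Finsupp.mapDomain ρ μ) A := by
  unfold pr; rw [Finsupp.linearCombination_mapDomain]; rfl

/-- multiply a measure by a function -/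
noncomputable def wt (c : X → ℝ) (μ : X →₀ ℝ) : X →₀ ℝ :=
  Finsupp.onFinset μ.support (fun b => μ b * c b) (fun b hb => by
    rw [Finsupp.mem_support_iff]; intro h; simp [h] at hb)

theorem pr_wt (μ : X →₀ ℝ) (c : X → ℝ) (A : X → E) :
    pr μ (fun b => c b • A b) = pr (wt c μ) A := by
  unfold pr wt
  rw [Finsupp.linearCombination_apply, Finsupp.linearCombination_apply, Finsupp.onFinset_sum]
  · simp [Finsupp.sum, mul_smul]
  · simp

theorem pr_abs_le (μ : X →₀ ℝ) (f g : X → ℝ) (d : ℝ) (h : ∀ b ∈ μ.support, |f b - g b| ≤ d) :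
    |pr μ f - pr μ g| ≤ (∑ b ∈ μ.support, |μ b|) * d := by
  rw [← pr_fsub, pr_eq_sum, Finset.sum_mul]
  refine (Finset.abs_sum_le_sum_abs _ _).trans (Finset.sum_le_sum fun b hb => ?_)
  rw [smul_eq_mul, abs_mul]
  exact mul_le_mul_of_nonneg_left (h b hb) (abs_nonneg _)

end pr

theorem pr_inner {H : Type} [NormedAddCommGroup H] [InnerProductSpace ℝ H] (μ : X →₀ ℝ) (h : H)
    (A : X → H) : pr μ (fun b => inner ℝ h (A b)) = inner ℝ h (pr μ A) := by
  simp [pr_eq_sum, inner_sum, inner_smul_right]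

/-- sign lemma -/
theorem exists_signs (a : ℕ → ℕ → ℝ) (N : ℕ) :
    ∃ e : ℕ → ℝ, (∀ l, e l = 1 ∨ e l = -1) ∧
      ∑ l ∈ Finset.range N, a l l ≤
        ∑ l ∈ Finset.range N, ∑ k ∈ Finset.range N, e l * e k * a l k := by
  induction N with
  | zero => exact ⟨fun _ => 1, fun _ => Or.inl rfl, by simp⟩
  | succ N ih =>
    obtain ⟨e, he, h⟩ := ih
    set T := ∑ l ∈ Finset.range N, e l * (a l N + a N l) with hT
    have key : ∀ s : ℝ, (s = 1 ∨ s = -1) → 0 ≤ s * T →
        ∃ e : ℕ → ℝ, (∀ l, e l = 1 ∨ e l = -1) ∧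
      ∑ l ∈ Finset.range (N + 1), a l l ≤
        ∑ l ∈ Finset.range (N + 1), ∑ k ∈ Finset.range (N + 1), e l * e k * a l k := by
      intro s hs hsT
      refine ⟨Function.update e N s, fun l => ?_, ?_⟩
      · by_cases hl : l = N
        · subst hl; simpa using hs
        · simpa [Function.update_of_ne hl] using he l
      · have hu : ∀ l ∈ Finset.range N, Function.update e N s l = e l := fun l hl =>
          Function.update_of_ne (Finset.mem_range.1 hl).ne _ _
        simp only [Finset.sum_range_succ, Function.update_self, Finset.sum_add_distrib]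
        have h1 : ∑ l ∈ Finset.range N, ∑ k ∈ Finset.range N,
            Function.update e N s l * Function.update e N s k * a l k =
            ∑ l ∈ Finset.range N, ∑ k ∈ Finset.range N, e l * e k * a l k :=
          Finset.sum_congr rfl fun l hl => Finset.sum_congr rfl fun k hk => by
            rw [hu l hl, hu k hk]
        have h2 : ∑ l ∈ Finset.range N, Function.update e N s l * s * a l N +
            ∑ k ∈ Finset.range N, s * Function.update e N s k * a N k = s * T := by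
          rw [hT, Finset.mul_sum, ← Finset.sum_add_distrib]
          exact Finset.sum_congr rfl fun l hl => by rw [hu l hl]; ring
        have h3 : s * s = 1 := by rcases hs with rfl | rfl <;> norm_num
        rw [h1, h3]; linarith
    rcases le_total 0 T with hT0 | hT0
    · exact key 1 (Or.inl rfl) (by simpa)
    · exact key (-1) (Or.inr rfl) (by linarith)

def WUC (C : Set (X → ℝ)) (w : ℕ → X →₀ ℝ) : Prop :=
  ∃ B : ℝ, ∀ f ∈ C, ∀ s : Finset ℕ, ∑ i ∈ s, |pr (w i) f| ≤ B

def Null (C : Set (X → ℝ)) (w : ℕ → X →₀ ℝ) : Prop :=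
  ∀ α > 0, ∀ᶠ i in atTop, ∀ f ∈ C, |pr (w i) f| ≤ α

/-- The final contradiction used twice. -/
theorem no_combo (C : Set (X → ℝ)) (w : ℕ → X →₀ ℝ) (hw : WUC C w) (idx : ℕ → ℕ)
    (hidx : StrictMono idx) (C' β : ℝ) (hC' : 0 < C') (hβ : 0 < β)
    (g : ℕ → ℕ → X → ℝ) (hg : ∀ N l, l < N → β ≤ |pr (w (idx l)) (g N l)|)
    (hmem : ∀ N (e : ℕ → ℝ), (∀ l, |e l| ≤ 1) →
      (fun b => (∑ l ∈ Finset.range N, e l * g N l b) / C') ∈ C) : False := by
  obtain ⟨B, hB⟩ := hw
  obtain ⟨N, hN⟩ := exists_nat_gt (B * C' / β)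
  set a : ℕ → ℕ → ℝ := fun l k => pr (w (idx l)) (g N k) with ha
  obtain ⟨e, he, h⟩ := exists_signs (fun l k => SignType.sign (a l l) * a l k) N
  have he1 : ∀ l, |e l| ≤ 1 := fun l => by rcases he l with h | h <;> simp [h]
  have h1 := hB _ (hmem N e he1) ((Finset.range N).map ⟨idx, hidx.injective⟩)
  rw [Finset.sum_map] at h1
  simp only [Function.Embedding.coeFn_mk, pr_fdiv, pr_fsum, pr_fmul] at h1
  have h2 : (N : ℝ) * β ≤ ∑ l ∈ Finset.range N, SignType.sign (a l l) * a l l := by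
    have : ∑ l ∈ Finset.range N, β ≤ ∑ l ∈ Finset.range N, SignType.sign (a l l) * a l l :=
      Finset.sum_le_sum fun l hl => by
        rw [sign_mul_self]; exact hg N l (Finset.mem_range.1 hl)
    simpa using this
  have h3 : ∑ l ∈ Finset.range N, ∑ k ∈ Finset.range N,
      e l * e k * (SignType.sign (a l l) * a l k) ≤ B * C' := by
    refine le_trans ?_ (mul_le_mul_of_nonneg_right h1 hC'.le)
    rw [Finset.sum_mul]
    refine Finset.sum_le_sum fun l _ => ?_
    rw [abs_div, abs_of_pos hC', div_mul_cancel₀ _ hC'.ne']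
    have : ∑ k ∈ Finset.range N, e l * e k * (SignType.sign (a l l) * a l k) =
        (e l * SignType.sign (a l l)) * ∑ k ∈ Finset.range N, e k * a l k := by
      rw [Finset.mul_sum]; exact Finset.sum_congr rfl fun k _ => by ring
    rw [this]
    refine (le_abs_self _).trans ?_
    rw [abs_mul, abs_mul]
    have hs : |((SignType.sign (a l l) : SignType) : ℝ)| ≤ 1 := by
      rcases SignType.sign (a l l) with _ | _ | _ <;> simp
    have := mul_le_one₀ (he1 l) (abs_nonneg _) hs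
    exact mul_le_of_le_one_left (abs_nonneg _) this
  rw [div_lt_iff₀ hβ] at hN
  linarith

section sing
variable {H : Type} [NormedAddCommGroup H] [InnerProductSpace ℝ H]

def sing (A : X → H) (L : ℝ) : Set (X → ℝ) :=
  {f | ∃ h : H, ‖h‖ ≤ 1 ∧ f = fun b => inner ℝ h (A b) / L}

theorem sing_tendsto (A : X → H) (L : ℝ) (hL : 0 < L) (w : ℕ → X →₀ ℝ) (hw : WUC (sing A L) w) :
    Tendsto (fun i => ‖pr (w i) A‖) atTop (𝓝 0) := by
  obtain ⟨B, hB⟩ := hw
  set v : ℕ → H := fun i => pr (w i) A with hv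
  have hB0 : 0 ≤ B := by simpa using hB _ ⟨0, by simp, rfl⟩ ∅
  have key : ∀ N, ∑ l ∈ Finset.range N, ‖v l‖ ^ 2 ≤ (B * L) ^ 2 := by
    intro N
    obtain ⟨e, he, h⟩ := exists_signs (fun l k => inner ℝ (v l) (v k)) N
    set u := ∑ l ∈ Finset.range N, e l • v l with hu
    have h1 : ∑ l ∈ Finset.range N, ∑ k ∈ Finset.range N, e l * e k * inner ℝ (v l) (v k) =
        ‖u‖ ^ 2 := by
      rw [← real_inner_self_eq_norm_sq, hu, sum_inner]
      refine Finset.sum_congr rfl fun l _ => ?_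
      rw [inner_sum]
      refine Finset.sum_congr rfl fun k _ => ?_
      rw [inner_smul_left, inner_smul_right]; simp; ring
    have h2 : ‖u‖ ≤ B * L := by
      by_cases hu0 : u = 0
      · rw [hu0, norm_zero]; positivity
      have hn : 0 < ‖u‖ := norm_pos_iff.2 hu0
      have h3 := hB _ ⟨‖u‖⁻¹ • u, by rw [norm_smul, norm_inv, norm_norm, inv_mul_cancel₀ hn.ne'],
        rfl⟩ (Finset.range N)
      simp only [pr_fdiv, pr_inner] at h3
      have h4 : ‖u‖ = ∑ l ∈ Finset.range N, e l * inner ℝ (‖u‖⁻¹ • u) (v l) := by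
        have : inner ℝ (‖u‖⁻¹ • u) u = ‖u‖ := by
          rw [inner_smul_left, real_inner_self_eq_norm_sq]; simp; field_simp
        generalize ‖u‖⁻¹ • u = y at this ⊢
        rw [← this, hu, inner_sum]
        refine Finset.sum_congr rfl fun l _ => ?_
        rw [inner_smul_right]
      rw [h4]
      refine le_trans ?_ (mul_le_mul_of_nonneg_right h3 hL.le)
      rw [Finset.sum_mul]
      refine Finset.sum_le_sum fun l _ => ?_
      rw [abs_div, abs_of_pos hL, div_mul_cancel₀ _ hL.ne']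
      refine (le_abs_self _).trans ?_
      rw [abs_mul]
      have : |e l| ≤ 1 := by rcases he l with h | h <;> simp [h]
      exact mul_le_of_le_one_left (abs_nonneg _) this
    simp only [real_inner_self_eq_norm_sq] at h
    calc _ ≤ _ := h
      _ = ‖u‖ ^ 2 := h1
      _ ≤ _ := by gcongr
  have hs : Summable fun l => ‖v l‖ ^ 2 := summable_of_sum_range_le (fun l => by positivity) key
  have h0 := hs.tendsto_atTop_zero
  have := h0.sqrt
  simpa [Real.sqrt_sq (norm_nonneg _)] using this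

theorem sing_null (A : X → H) (L : ℝ) (hL : 0 < L) (w : ℕ → X →₀ ℝ) (hw : WUC (sing A L) w) :
    Null (sing A L) w := by
  intro α hα
  have h := sing_tendsto A L hL w hw
  filter_upwards [h.eventually (gt_mem_nhds (mul_pos hα hL))] with i hi f hf
  obtain ⟨h, hh, rfl⟩ := hf
  rw [pr_fdiv, pr_inner, abs_div, abs_of_pos hL, div_le_iff₀ hL]
  calc _ ≤ ‖h‖ * ‖pr (w i) A‖ := abs_real_inner_le_norm _ _
    _ ≤ 1 * ‖pr (w i) A‖ := by gcongr
    _ ≤ _ := by linarith

end sing

end Crest.Agent.LE
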