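import Mathlib

set_option autoImplicit false
open Filter Topology
open scoped ZeroAtInfty

namespace Crest.Agent.LE

variable {E : Type} [NormedAddCommGroup E]

/-- null sequence from a function -/
def mk0 (f : ℕ → E) (h : Tendsto f atTop (𝓝 0)) : C₀(ℕ, E) where
  toFun := f
  continuous_toFun := continuous_of_discreteTopology
  zero_at_infty' := by rwa [Filter.cocompact_eq_cofinite, Nat.cofinite_eq_atTop]

@[simp] theorem mk0_apply (f : ℕ → E) (h : Tendsto f atTop (𝓝 0)) (i : ℕ) : mk0 f h i = f i := rfl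

theorem c0_tendsto (f : C₀(ℕ, E)) : Tendsto f atTop (𝓝 0) := by
  have := zero_at_infty f
  rwa [Filter.cocompact_eq_cofinite, Nat.cofinite_eq_atTop] at this

theorem c0_apply_le (f : C₀(ℕ, E)) (i : ℕ) : ‖f i‖ ≤ ‖f‖ := by
  rw [← ZeroAtInftyContinuousMap.norm_toBCF_eq_norm]
  exact f.toBCF.norm_coe_le_norm i

theorem c0_norm_le (f : C₀(ℕ, E)) {c : ℝ} (hc : 0 ≤ c) (h : ∀ i, ‖f i‖ ≤ c) : ‖f‖ ≤ c := by
  rw [← ZeroAtInftyContinuousMap.norm_toBCF_eq_norm]
  exact (BoundedContinuousFunction.norm_le hc).2 h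

theorem c0_sub_le (f g : C₀(ℕ, E)) (i : ℕ) : ‖f i - g i‖ ≤ ‖f - g‖ := c0_apply_le (f - g) i

theorem c0_cont (i : ℕ) : Continuous fun f : C₀(ℕ, E) => f i :=
  (LipschitzWith.of_dist_le_mul (K := 1) fun f g => by
    simpa [dist_eq_norm] using c0_sub_le f g i).continuous

theorem c0_single_tendsto (i : ℕ) (x : E) : Tendsto (Pi.single (M := fun _ => E) i x) atTop (𝓝 0) :=
  tendsto_const_nhds.congr' (by
    filter_upwards [eventually_gt_atTop i] with j hj
    rw [Pi.single_eq_of_ne hj.ne'])

theorem c0_separable [NormedSpace ℝ E] [TopologicalSpace.SeparableSpace E] :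
    TopologicalSpace.SeparableSpace C₀(ℕ, E) := by
  let s : ℕ → E → C₀(ℕ, E) := fun i x => mk0 (Pi.single i x) (c0_single_tendsto i x)
  have hc : ∀ i, Continuous (s i) := fun i =>
    (LipschitzWith.of_dist_le_mul (K := 1) fun x y => by
      simp only [dist_eq_norm, NNReal.coe_one, one_mul]
      refine c0_norm_le _ (norm_nonneg _) fun j => ?_
      by_cases h : j = i
      · subst h; simp [s]
      · simp [s, Pi.single_eq_of_ne h]).continuous
  have h1 : TopologicalSpace.IsSeparable (⋃ i, Set.range (s i)) :=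
    TopologicalSpace.IsSeparable.iUnion fun i => TopologicalSpace.isSeparable_range (hc i)
  rw [← TopologicalSpace.isSeparable_univ_iff]
  refine (h1.span (R := ℝ)).closure.mono fun f _ => ?_
  rw [Metric.mem_closure_iff]
  intro e he
  obtain ⟨N, hN⟩ := eventually_atTop.1 ((c0_tendsto f).norm.eventually
    (gt_mem_nhds (show ‖(0 : E)‖ < e / 2 by simpa using he)))
  refine ⟨∑ i ∈ Finset.range N, s i (f i), Submodule.sum_mem _ fun i _ =>
    Submodule.subset_span (Set.mem_iUnion.2 ⟨i, _, rfl⟩), ?_⟩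
  rw [dist_eq_norm]
  refine lt_of_le_of_lt (c0_norm_le _ (show 0 ≤ e / 2 by positivity) fun j => ?_) (by linarith)
  have : ∀ n, (∑ i ∈ Finset.range n, s i (f i)) j = if j < n then f j else 0 := by
    intro n
    induction n with
    | zero => simp
    | succ n ih =>
      rw [Finset.sum_range_succ, ZeroAtInftyContinuousMap.add_apply, ih]
      by_cases h : j = n
      · subst h; simp [s]
      · simp only [s, mk0_apply, Pi.single_eq_of_ne h, add_zero]
        by_cases h2 : j < n
        · rw [if_pos h2, if_pos (by omega)]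
        · rw [if_neg h2, if_neg (by omega)]
  rw [ZeroAtInftyContinuousMap.sub_apply, this]
  split_ifs with h
  · simp; positivity
  · simpa using (hN j (by omega)).le

theorem tendsto_extend {π : ℕ → ℕ} (hπ : Function.Injective π) {v x : ℕ → E}
    (hv : Tendsto v atTop (𝓝 0)) (hx : Tendsto x atTop (𝓝 0)) :
    Tendsto (Function.extend π v x) atTop (𝓝 0) := by
  rw [← Nat.cofinite_eq_atTop] at hv hx ⊢
  intro U hU
  have h1 : (v ⁻¹' U)ᶜ.Finite := hv hU
  have h2 : (x ⁻¹' U)ᶜ.Finite := hx hU
  refine ((h1.image π).union h2).subset fun j hj => ?_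
  by_cases h : ∃ i, π i = j
  · obtain ⟨i, rfl⟩ := h
    left
    refine ⟨i, fun hi => hj ?_, rfl⟩
    change Function.extend π v x (π i) ∈ U
    rw [hπ.extend_apply]; exact hi
  · right
    intro hi
    apply hj
    change Function.extend π v x j ∈ U
    rw [Function.extend_apply' _ _ _ h]; exact hi

end Crest.Agent.LE
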