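import Crest.Agent.LE.Hotel
import Crest.Agent.LE.Basic

set_option autoImplicit false
open Filter Topology
open scoped ZeroAtInfty

namespace Crest.Agent.LE

abbrev L2 : Type := lp (fun _ : ℕ => ℝ) 2

/-- coordinate truncation in `ℓ²` -/
noncomputable def tr (n : ℕ) (h : L2) : L2 :=
  ⟨fun t => if t < n then h t else 0, (lp.memℓp h).mono' fun t => by split_ifs <;> simp⟩

theorem tr_apply (n : ℕ) (h : L2) (t : ℕ) : tr n h t = if t < n then h t else 0 := rfl

theorem tr_norm (n : ℕ) (h : L2) : ‖tr n h‖ ≤ ‖h‖ :=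
  lp.norm_mono (by norm_num) fun t => by rw [tr_apply]; split_ifs <;> simp

theorem tr_sub (n : ℕ) (h g : L2) : tr n h - tr n g = tr n (h - g) := by
  ext t; simp only [lp.coeFn_sub, Pi.sub_apply, tr_apply]; split_ifs <;> simp

theorem tr_tr {m n : ℕ} (hmn : m ≤ n) (h : L2) : tr m (tr n h) = tr m h := by
  ext t; simp only [tr_apply]; split_ifs <;> first | rfl | omega

theorem tr_zero (n : ℕ) : tr n 0 = 0 := by
  ext t; simp [tr_apply]

theorem tr_eq_sum (n : ℕ) (h : L2) : tr n h = ∑ t ∈ Finset.range n, lp.single 2 t (h t) := by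
  ext t
  simp only [tr_apply, lp.coeFn_sum, Finset.sum_apply, lp.single_apply, Finset.sum_pi_single,
    Finset.mem_range]

theorem tr_tendsto (h : L2) : Tendsto (fun n => tr n h) atTop (𝓝 h) := by
  simp only [tr_eq_sum]
  exact (lp.hasSum_single (by norm_num) h).tendsto_sum_nat

theorem tr_norm_le (n : ℕ) (h : L2) {r : ℝ} (hr : ∀ t < n, |h t| ≤ r) : ‖tr n h‖ ≤ n * r := by
  rw [tr_eq_sum]
  refine (norm_sum_le _ _).trans ?_
  have : ∑ t ∈ Finset.range n, ‖(lp.single 2 t (h t) : L2)‖ ≤ ∑ t ∈ Finset.range n, r :=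
    Finset.sum_le_sum fun t ht => by
      rw [lp.norm_single (by norm_num)]; exact hr t (Finset.mem_range.1 ht)
  simpa using this

theorem inner_tr (n : ℕ) (h v : L2) : inner ℝ (tr n h) v = inner ℝ (tr n h) (tr n v) := by
  rw [lp.inner_eq_tsum, lp.inner_eq_tsum]
  congr 1; funext t
  simp only [tr_apply]; split_ifs <;> simp

theorem l2_separable : TopologicalSpace.SeparableSpace L2 := by
  have h1 : TopologicalSpace.IsSeparable (Set.range fun t : ℕ => (lp.single 2 t (1 : ℝ) : L2)) :=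
    (Set.countable_range _).isSeparable
  rw [← TopologicalSpace.isSeparable_univ_iff]
  refine (h1.span (R := ℝ)).closure.mono fun f _ => ?_
  refine mem_closure_of_tendsto (tr_tendsto f) (Eventually.of_forall fun n => ?_)
  rw [tr_eq_sum]
  refine Submodule.sum_mem _ fun t _ => ?_
  have : (lp.single 2 t (f t) : L2) = f t • lp.single 2 t (1 : ℝ) := by
    rw [← lp.single_smul]; simp
  rw [this]
  exact Submodule.smul_mem _ _ (Submodule.subset_span ⟨t, rfl⟩)

abbrev BB : Type := C₀(ℕ, L2 × ℝ)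

/-- points of the cone -/
abbrev Pt : Type := {b : BB // Cone b}

theorem cone_nn {b : BB} (hb : Cone b) (i : ℕ) : 0 ≤ (b i).2 :=
  le_trans (by positivity) (hb i)

theorem tendsto_ite {E : Type} [NormedAddCommGroup E] (n : ℕ) (f : ℕ → E) :
    Tendsto (fun i => if i < n then f i else 0) atTop (𝓝 0) :=
  tendsto_const_nhds.congr' (by
    filter_upwards [eventually_ge_atTop n] with i hi
    rw [if_neg (by omega)])

noncomputable def PP (J : ℕ) (b : Pt) : Pt :=
  ⟨mk0 (fun i => if i < J then b.1 i else 0) (tendsto_ite _ _), fun i => by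
    simp only [mk0_apply]; split_ifs
    · exact b.2 i
    · simp⟩

noncomputable def QQ (n : ℕ) (b : Pt) : Pt :=
  ⟨mk0 (fun i => if i < n then (tr n (b.1 i).1, (b.1 i).2) else 0) (tendsto_ite _ _), fun i => by
    simp only [mk0_apply]; split_ifs
    · have := tr_norm n (b.1 i).1
      have := b.2 i
      simp only; linarith
    · simp⟩

theorem PP_apply (J : ℕ) (b : Pt) (i : ℕ) : (PP J b).1 i = if i < J then b.1 i else 0 := rfl

theorem QQ_apply (n : ℕ) (b : Pt) (i : ℕ) :
    (QQ n b).1 i = if i < n then (tr n (b.1 i).1, (b.1 i).2) else 0 := rfl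

theorem Pt.dist_eq (x y : Pt) : dist x y = ‖x.1 - y.1‖ := by
  rw [Subtype.dist_eq, dist_eq_norm]

/-- convex combinations -/
noncomputable def cvx (x y : Pt) (t : ℝ) (h0 : 0 ≤ t) (h1 : t ≤ 1) : Pt :=
  ⟨x.1 + t • (y.1 - x.1), fun i => by
    have e : (x.1 + t • (y.1 - x.1)) i = (1 - t) • x.1 i + t • y.1 i := by
      simp only [ZeroAtInftyContinuousMap.add_apply, ZeroAtInftyContinuousMap.smul_apply,
        ZeroAtInftyContinuousMap.sub_apply]; module
    rw [e]
    simp only [Prod.fst_add, Prod.smul_fst, Prod.snd_add, Prod.smul_snd, smul_eq_mul]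
    have a1 := norm_add_le ((1 - t) • (x.1 i).1) (t • (y.1 i).1)
    rw [norm_smul, norm_smul, Real.norm_of_nonneg h0, Real.norm_of_nonneg (by linarith)] at a1
    have a2 := mul_le_mul_of_nonneg_left (x.2 i) (show 0 ≤ 1 - t by linarith)
    have a3 := mul_le_mul_of_nonneg_left (y.2 i) h0
    linarith⟩

theorem pt_loc (F : Pt → ℝ) (L : ℝ)
    (h : ∀ b, ∃ r > 0, ∀ x y, dist x b < r → dist y b < r → |F x - F y| ≤ L * dist x y)
    (x y : Pt) : |F x - F y| ≤ L * dist x y := by
  have hF : Continuous F := by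
    refine continuous_iff_continuousAt.2 fun b => ?_
    obtain ⟨r, hr, hb⟩ := h b
    rw [ContinuousAt, tendsto_iff_dist_tendsto_zero]
    refine squeeze_zero' (g := fun x => L * dist x b) (Eventually.of_forall fun _ => dist_nonneg)
      ?_ ?_
    · filter_upwards [Metric.ball_mem_nhds b hr] with x hx
      exact hb x b hx (by simpa using hr)
    · have : Continuous fun x : Pt => L * dist x b := by fun_prop
      simpa using this.tendsto b
  let γ : ℝ → Pt := fun t => cvx x y (max 0 (min t 1)) (le_max_left _ _)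
    (max_le zero_le_one (min_le_right _ _))
  have hγ : ∀ s t, dist (γ s) (γ t) = |max 0 (min s 1) - max 0 (min t 1)| * dist x y := by
    intro s t
    rw [Pt.dist_eq, Pt.dist_eq]
    simp only [γ, cvx]
    rw [add_sub_add_left_eq_sub]
    refine (congrArg norm (sub_smul (max 0 (min s 1)) (max 0 (min t 1)) (y.1 - x.1)).symm).trans ?_
    rw [norm_smul, norm_sub_rev y.1, Real.norm_eq_abs]
  have hγc : Continuous γ := by
    refine Continuous.subtype_mk ?_ _
    fun_prop
  have h0 : γ 0 = x := Subtype.ext (by simp [γ, cvx])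
  have h1 : γ 1 = y := Subtype.ext (by simp [γ, cvx])
  have key : Set.Icc (0 : ℝ) 1 ⊆ {t | |F x - F (γ t)| ≤ L * dist x y * t} := by
    refine IsClosed.Icc_subset_of_forall_mem_nhdsWithin
      ((isClosed_le (by fun_prop) (by fun_prop)).inter isClosed_Icc) (by simp [h0]) ?_
    rintro t ⟨ht, ht0, ht1⟩
    obtain ⟨r, hr, hb⟩ := h (γ t)
    have e1 : ∀ᶠ s in 𝓝[>] t, dist (γ s) (γ t) < r :=
      nhdsWithin_le_nhds (hγc.continuousAt.eventually (Metric.ball_mem_nhds _ hr))
    filter_upwards [e1, Ioo_mem_nhdsGT ht1] with s hs hs'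
    have a1 := hb (γ t) (γ s) (by simpa using hr) hs
    rw [hγ, min_eq_left ht1.le, min_eq_left hs'.2.le, max_eq_right ht0,
      max_eq_right (ht0.trans hs'.1.le), abs_sub_comm t s, abs_of_pos (sub_pos.2 hs'.1)] at a1
    have a2 := abs_sub_le (F x) (F (γ t)) (F (γ s))
    simp only [Set.mem_setOf_eq] at ht ⊢
    nlinarith
  simpa [h1] using key ⟨zero_le_one, le_rfl⟩

theorem radial {E : Type} [NormedAddCommGroup E] [NormedSpace ℝ E] {a l : ℝ} (ha : 0 < a)
    (hl : 1 < l) : ∃ θ : ℝ → ℝ, (∀ s, 0 ≤ θ s) ∧ (∀ s, θ s ≤ 1) ∧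
      (∀ v w : E, ‖θ ‖v‖ • v - θ ‖w‖ • w‖ ≤ l / (l - 1) * ‖v - w‖) ∧
      (∀ v : E, ‖v‖ ≤ a → θ ‖v‖ • v = 0) ∧ (∀ v : E, l * a ≤ ‖v‖ → θ ‖v‖ = 1) ∧
      ∀ v : E, ‖θ ‖v‖ • v - v‖ ≤ a := by
  set L := l / (l - 1) with hL
  have hl1 : 0 < l - 1 := by linarith
  have hL1 : 1 ≤ L := by rw [hL, le_div_iff₀ hl1]; linarith
  let θ : ℝ → ℝ := fun s => max 0 (min 1 (L * (1 - a / s)))
  have t0 : ∀ s, 0 ≤ θ s := fun s => le_max_left _ _
  have t1 : ∀ s, θ s ≤ 1 := fun s => max_le zero_le_one (min_le_left _ _)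
  have eta : ∀ s, 0 < s → θ s * s = max 0 (min s (L * (s - a))) := fun s hs => by
    simp only [θ]
    rw [max_mul_of_nonneg _ _ hs.le, min_mul_of_nonneg _ _ hs.le, zero_mul, one_mul]
    congr 2; field_simp
  have mono : ∀ s t, 0 < s → s ≤ t → θ s ≤ θ t := fun s t hs hst =>
    max_le_max le_rfl (min_le_min le_rfl (by gcongr))
  have key : ∀ v w : E, ‖w‖ ≤ ‖v‖ → ‖θ ‖v‖ • v - θ ‖w‖ • w‖ ≤ L * ‖v - w‖ := by
    intro v w hvw
    rcases eq_or_lt_of_le (norm_nonneg w) with h0 | h0
    · rw [norm_eq_zero.1 h0.symm]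
      simp only [smul_zero, sub_zero, norm_smul, Real.norm_of_nonneg (t0 _)]
      exact mul_le_mul_of_nonneg_right ((t1 _).trans hL1) (norm_nonneg _)
    · have e : θ ‖v‖ • v - θ ‖w‖ • w = θ ‖v‖ • (v - w) + (θ ‖v‖ - θ ‖w‖) • w := by module
      have m := mono _ _ h0 hvw
      rw [e]
      refine (norm_add_le _ _).trans ?_
      rw [norm_smul, norm_smul, Real.norm_of_nonneg (t0 _), Real.norm_of_nonneg (by linarith)]
      have a1 : θ ‖v‖ * ‖v‖ - θ ‖w‖ * ‖w‖ ≤ L * (‖v‖ - ‖w‖) := by
        rw [eta _ (h0.trans_le hvw), eta _ h0]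
        refine (le_abs_self _).trans ((abs_max_sub_max_le_max _ _ _ _).trans (max_le ?_
          ((abs_min_sub_min_le_max _ _ _ _).trans (max_le ?_ ?_))))
        · simp; nlinarith
        · rw [abs_of_nonneg (by linarith)]; nlinarith
        · rw [abs_of_nonneg (by nlinarith)]; linarith
      have a2 := norm_sub_norm_le v w
      have a3 := t1 ‖v‖
      nlinarith
  refine ⟨θ, t0, t1, fun v w => ?_, fun v hv => ?_, fun v hv => ?_, fun v => ?_⟩
  · rcases le_total ‖w‖ ‖v‖ with h | h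
    · exact key v w h
    · rw [norm_sub_rev, norm_sub_rev v]; exact key w v h
  · rcases eq_or_lt_of_le (norm_nonneg v) with h0 | h0
    · rw [norm_eq_zero.1 h0.symm, smul_zero]
    · have : θ ‖v‖ = 0 := by
        refine max_eq_left ((min_le_right _ _).trans ?_)
        have : 1 ≤ a / ‖v‖ := by rwa [le_div_iff₀ h0, one_mul]
        nlinarith
      rw [this, zero_smul]
  · have h0 : 0 < ‖v‖ := lt_of_lt_of_le (by positivity) hv
    have : 1 ≤ L * (1 - a / ‖v‖) := by
      have h2 : a / ‖v‖ ≤ 1 / l := by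
        rw [div_le_div_iff₀ h0 (by linarith)]; linarith
      have h3 : L * (1 - 1 / l) = 1 := by rw [hL]; field_simp
      nlinarith
    simp only [θ]; rw [min_eq_left this, max_eq_right zero_le_one]
  · have e : θ ‖v‖ • v - v = (θ ‖v‖ - 1) • v := by module
    rw [e, norm_smul, Real.norm_of_nonpos (by linarith [t1 ‖v‖])]
    rcases eq_or_lt_of_le (norm_nonneg v) with h0 | h0
    · rw [← h0]; simp; exact ha.le
    · have a1 := eta _ h0
      have a2 : ‖v‖ - a ≤ max 0 (min ‖v‖ (L * (‖v‖ - a))) := by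
        rcases le_total ‖v‖ a with h | h
        · exact le_max_of_le_left (by linarith)
        · exact le_max_of_le_right (le_min (by linarith) (by nlinarith))
      linarith

/-- the concrete setup -/
noncomputable def SS : Setup Pt where
  P := PP
  Q := QQ
  τ := fun j b => (b.1 j).2
  QP n J b h := Subtype.ext (ZeroAtInftyContinuousMap.ext fun i => by
    simp only [QQ_apply, PP_apply]; split_ifs <;> first | rfl | omega)
  QQ m n b h := Subtype.ext (ZeroAtInftyContinuousMap.ext fun i => by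
    simp only [QQ_apply]; split_ifs <;> first | rfl | omega | simp only [tr_tr h])
  PQ J n b := Subtype.ext (ZeroAtInftyContinuousMap.ext fun i => by
    simp only [QQ_apply, PP_apply]; split_ifs <;> first | rfl | (simp only [Prod.fst_zero, tr_zero]; rfl))
  PP J K b := Subtype.ext (ZeroAtInftyContinuousMap.ext fun i => by
    simp only [PP_apply]; split_ifs <;> first | rfl | omega)
  Plip J x y := by
    rw [Pt.dist_eq, Pt.dist_eq]
    refine c0_norm_le _ (norm_nonneg _) fun i => ?_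
    rw [ZeroAtInftyContinuousMap.sub_apply, PP_apply, PP_apply]
    split_ifs
    · exact c0_sub_le _ _ _
    · simp
  Qlip n x y := by
    rw [Pt.dist_eq, Pt.dist_eq]
    refine c0_norm_le _ (norm_nonneg _) fun i => ?_
    rw [ZeroAtInftyContinuousMap.sub_apply, QQ_apply, QQ_apply]
    split_ifs
    · rw [Prod.norm_def, Prod.fst_sub, Prod.snd_sub, tr_sub]
      exact max_le ((tr_norm _ _).trans (fst_sub_le _ _ _)) (snd_sub_le _ _ _)
    · simp
  τP j J b := by rw [PP_apply]; split_ifs <;> rfl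
  τQ j n b := by rw [QQ_apply]; split_ifs <;> rfl
  τlip j x y := by rw [Pt.dist_eq]; exact snd_sub_le _ _ _
  τnn j b := cone_nn b.2 j
  τlim b := (c0_tendsto b.1).snd_nhds
  loc := pt_loc
  rad c a l ha hl := by
    obtain ⟨θ, t0, t1, h1, h2, h3, h4⟩ := radial (E := BB) ha hl
    refine ⟨fun x => cvx c x (θ ‖x.1 - c.1‖) (t0 _) (t1 _), fun x y => ?_, fun x hx => ?_,
      fun x hx => ?_, fun x => ?_⟩
    · rw [Pt.dist_eq, Pt.dist_eq]
      have := h1 (x.1 - c.1) (y.1 - c.1)
      rw [sub_sub_sub_cancel_right] at this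
      simpa only [cvx, add_sub_add_left_eq_sub] using this
    · rw [Pt.dist_eq] at hx
      exact Subtype.ext (by simp only [cvx]; rw [h2 _ hx, add_zero])
    · rw [Pt.dist_eq] at hx
      exact Subtype.ext (by simp only [cvx]; rw [h3 _ hx]; simp)
    · rw [Pt.dist_eq]
      refine le_trans (le_of_eq ?_) (h4 (x.1 - c.1))
      simp only [cvx]; congr 1; abel

end Crest.Agent.LE
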