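import Crest.Agent.LE.Basic

set_option autoImplicit false
open Filter Topology

namespace Crest.Agent.LE

variable {X : Type} [MetricSpace X]

section Dom
variable (H : Type) [NormedAddCommGroup H] [InnerProductSpace ℝ H]

/-- bounded Lipschitz maps -/
def BL {E : Type} [NormedAddCommGroup E] (A : X → E) : Prop :=
  ∃ L D : ℝ, 0 < L ∧ (∀ x y, ‖A x - A y‖ ≤ L * dist x y) ∧ ∀ x, ‖A x‖ ≤ D

/-- families dominated by finitely many `H`-valued bounded Lipschitz maps -/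
def Dom (K : Set (X → ℝ)) : Prop :=
  ∃ l : List (X → H), (∀ A ∈ l, BL A) ∧
    ∀ g ∈ K, ∀ μ : X →₀ ℝ, |pr μ g| ≤ (l.map fun A => ‖pr μ A‖).sum

variable {H}

theorem lsum_nonneg (l : List (X → H)) (μ : X →₀ ℝ) : 0 ≤ (l.map fun A => ‖pr μ A‖).sum :=
  List.sum_nonneg fun x hx => by
    obtain ⟨A, -, rfl⟩ := List.mem_map.1 hx; exact norm_nonneg _

theorem Dom.mono {K K' : Set (X → ℝ)} (h : Dom H K) (hs : K' ⊆ K) : Dom H K' := by
  obtain ⟨l, h1, h2⟩ := h; exact ⟨l, h1, fun g hg => h2 g (hs hg)⟩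

theorem Dom.zero : Dom H ({fun _ => 0} : Set (X → ℝ)) :=
  ⟨[], by simp, fun g hg μ => by rw [hg, pr_fzero]; simp⟩

theorem Dom.add {K K' : Set (X → ℝ)} (h : Dom H K) (h' : Dom H K') :
    Dom H {g | ∃ g1 ∈ K, ∃ g2 ∈ K', g = fun b => g1 b + g2 b} := by
  obtain ⟨l, h1, h2⟩ := h
  obtain ⟨l', h1', h2'⟩ := h'
  refine ⟨l ++ l', fun A hA => ?_, ?_⟩
  · rcases List.mem_append.1 hA with h | h
    exacts [h1 A h, h1' A h]
  · rintro g ⟨g1, hg1, g2, hg2, rfl⟩ μ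
    rw [pr_fadd, List.map_append, List.sum_append]
    exact (abs_add_le _ _).trans (add_le_add (h2 g1 hg1 μ) (h2' g2 hg2 μ))

theorem Dom.union {K K' : Set (X → ℝ)} (h : Dom H K) (h' : Dom H K') : Dom H (K ∪ K') := by
  obtain ⟨l, h1, h2⟩ := h
  obtain ⟨l', h1', h2'⟩ := h'
  refine ⟨l ++ l', fun A hA => ?_, ?_⟩
  · rcases List.mem_append.1 hA with h | h
    exacts [h1 A h, h1' A h]
  · rintro g hg μ
    rw [List.map_append, List.sum_append]
    rcases hg with hg | hg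
    · linarith [h2 g hg μ, lsum_nonneg l' μ]
    · linarith [h2' g hg μ, lsum_nonneg l μ]

theorem Dom.biUnion {ι : Type} (s : Finset ι) (K : ι → Set (X → ℝ)) (h : ∀ i ∈ s, Dom H (K i)) :
    Dom H {g | ∃ i ∈ s, g ∈ K i} := by
  classical
  induction s using Finset.induction_on with
  | empty => exact Dom.zero.mono (by simp)
  | insert a s ha ih =>
    refine ((h a (by simp)).union (ih fun i hi => h i (by simp [hi]))).mono ?_
    rintro g ⟨i, hi, hg⟩
    rcases Finset.mem_insert.1 hi with rfl | hi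
    · exact Or.inl hg
    · exact Or.inr ⟨i, hi, hg⟩

theorem Dom.smul {K : Set (X → ℝ)} (h : Dom H K) :
    Dom H {g | ∃ g1 ∈ K, ∃ e : ℝ, |e| ≤ 1 ∧ g = fun b => e * g1 b} := by
  obtain ⟨l, h1, h2⟩ := h
  refine ⟨l, h1, ?_⟩
  rintro g ⟨g1, hg1, e, he, rfl⟩ μ
  rw [pr_fmul, abs_mul]
  exact (mul_le_of_le_one_left (abs_nonneg _) he).trans (h2 g1 hg1 μ)

theorem Dom.sub {K K' : Set (X → ℝ)} (h : Dom H K) (h' : Dom H K') :
    Dom H {g | ∃ g1 ∈ K, ∃ g2 ∈ K', g = fun b => g1 b - g2 b} := by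
  refine (h.add h'.smul).mono ?_
  rintro g ⟨g1, hg1, g2, hg2, rfl⟩
  exact ⟨g1, hg1, _, ⟨g2, hg2, -1, by simp, rfl⟩, by funext b; ring⟩

theorem Dom.mul {K : Set (X → ℝ)} (h : Dom H K) (c : X → ℝ) (hc : BL c) :
    Dom H {g | ∃ g1 ∈ K, g = fun b => g1 b * c b} := by
  obtain ⟨l, h1, h2⟩ := h
  obtain ⟨Lc, Dc, hLc, hc1, hc2⟩ := hc
  refine ⟨l.map fun A b => c b • A b, fun A hA => ?_, ?_⟩
  · obtain ⟨A, hA', rfl⟩ := List.mem_map.1 hA
    obtain ⟨L, D, hL, ha1, ha2⟩ := h1 A hA'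
    refine ⟨|Dc| * L + Lc * |D| + 1, Dc * D, by positivity, fun x y => ?_, fun x => ?_⟩
    · have e : c x • A x - c y • A y = c x • (A x - A y) + (c x - c y) • A y := by
        rw [smul_sub, sub_smul]; abel
      rw [e]
      refine (norm_add_le _ _).trans ?_
      rw [norm_smul, norm_smul]
      have t1 : ‖c x‖ * ‖A x - A y‖ ≤ |Dc| * (L * dist x y) :=
        mul_le_mul ((hc2 x).trans (le_abs_self _)) (ha1 x y) (norm_nonneg _) (abs_nonneg _)
      have t2 : ‖c x - c y‖ * ‖A y‖ ≤ (Lc * dist x y) * |D| :=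
        mul_le_mul (hc1 x y) ((ha2 y).trans (le_abs_self _)) (norm_nonneg _) (by positivity)
      nlinarith [dist_nonneg (x := x) (y := y)]
    · rw [norm_smul]
      exact mul_le_mul (hc2 x) (ha2 x) (norm_nonneg _) ((norm_nonneg _).trans (hc2 x))
  · rintro g ⟨g1, hg1, rfl⟩ μ
    have e : (fun b => g1 b * c b) = fun b => c b • g1 b := by funext b; simp [mul_comm]
    rw [e, pr_wt, List.map_map]
    refine (h2 g1 hg1 _).trans (le_of_eq ?_)
    congr 1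
    refine List.map_congr_left fun A _ => ?_
    simp only [Function.comp]; rw [pr_wt]

theorem Dom.comp {K : Set (X → ℝ)} (h : Dom H K) (ρ : X → X) (Lr : ℝ) (hLr : 0 < Lr)
    (hρ : ∀ x y, dist (ρ x) (ρ y) ≤ Lr * dist x y) :
    Dom H {g | ∃ g1 ∈ K, g = fun b => g1 (ρ b)} := by
  obtain ⟨l, h1, h2⟩ := h
  refine ⟨l.map fun A b => A (ρ b), fun A hA => ?_, ?_⟩
  · obtain ⟨A, hA', rfl⟩ := List.mem_map.1 hA
    obtain ⟨L, D, hL, ha1, ha2⟩ := h1 A hA'
    refine ⟨L * Lr, D, by positivity, fun x y => (ha1 _ _).trans ?_, fun x => ha2 _⟩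
    rw [mul_assoc]; exact mul_le_mul_of_nonneg_left (hρ x y) hL.le
  · rintro g ⟨g1, hg1, rfl⟩ μ
    rw [pr_comp, List.map_map]
    refine (h2 g1 hg1 _).trans (le_of_eq ?_)
    congr 1
    refine List.map_congr_left fun A _ => ?_
    simp only [Function.comp]; rw [pr_comp μ ρ A]

theorem Dom.sum {K : Set (X → ℝ)} (h : Dom H K) (N : ℕ) :
    Dom H {g | ∃ n ≤ N, ∃ G : ℕ → X → ℝ, (∀ l < n, G l ∈ K) ∧
      g = fun b => ∑ l ∈ Finset.range n, G l b} := by
  induction N with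
  | zero =>
    refine Dom.zero.mono ?_
    rintro g ⟨n, hn, G, -, rfl⟩
    obtain rfl : n = 0 := by omega
    simp
  | succ N ih =>
    refine (ih.union (ih.add h)).mono ?_
    rintro g ⟨n, hn, G, hG, rfl⟩
    rcases Nat.lt_or_ge n (N + 1) with h1 | h1
    · exact Or.inl ⟨n, by omega, G, hG, rfl⟩
    · obtain rfl : n = N + 1 := by omega
      refine Or.inr ⟨_, ⟨N, le_rfl, G, fun l hl => hG l (by omega), rfl⟩, G N, hG N (by omega), ?_⟩
      funext b; rw [Finset.sum_range_succ]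

/-- uniform smallness on dominated families -/
theorem Dom.exists_sing {K : Set (X → ℝ)} (h : Dom H K) :
    ∃ S : Set (Set (X → ℝ)), S.Countable ∧
      (∀ C ∈ S, ∃ (A : X → H) (L : ℝ), 0 < L ∧ (∀ x y, ‖A x - A y‖ ≤ L * dist x y) ∧
        C = sing A L) ∧
      ∀ w : ℕ → X →₀ ℝ, (∀ C ∈ S, WUC C w) → Null K w := by
  obtain ⟨l, h1, h2⟩ := h
  choose L D hL ha hD using h1
  refine ⟨{C | ∃ A, ∃ hA : A ∈ l, C = sing A (L A hA)}, ?_, ?_, ?_⟩
  · have : {C | ∃ A, ∃ hA : A ∈ l, C = sing A (L A hA)} =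
        Set.range fun A : {A // A ∈ l} => sing A.1 (L A.1 A.2) := by
      ext C; simp [eq_comm]
    rw [this]
    haveI : Finite {A // A ∈ l} := (List.finite_toSet l).to_subtype
    exact (Set.finite_range _).countable
  · rintro C ⟨A, hA, rfl⟩; exact ⟨A, _, hL A hA, ha A hA, rfl⟩
  · intro w hw α hα
    have ht : ∀ A ∈ l, Tendsto (fun i => ‖pr (w i) A‖) atTop (𝓝 0) := fun A hA =>
      sing_tendsto A _ (hL A hA) w (hw _ ⟨A, hA, rfl⟩)
    have hs : Tendsto (fun i => (l.map fun A => ‖pr (w i) A‖).sum) atTop (𝓝 0) := by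
      clear h2 hw hD ha hL D L
      induction l with
      | nil => simp
      | cons A l ih =>
        simp only [List.map_cons, List.sum_cons]
        simpa using (ht A (by simp)).add (ih fun B hB => ht B (by simp [hB]))
    filter_upwards [hs.eventually (gt_mem_nhds hα)] with i hi g hg
    exact (h2 g hg _).trans hi.le

end Dom

section cut
variable (S : Setup X)

/-- maximum of the `τ`-coordinates on a range -/
noncomputable def mx (J0 J1 : ℕ) (b : X) : ℝ := (Finset.Ico J0 J1).fold max 0 fun j => S.τ j b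

theorem mx_le {J0 J1 : ℕ} {b : X} {c : ℝ} :
    mx S J0 J1 b ≤ c ↔ 0 ≤ c ∧ ∀ j, J0 ≤ j → j < J1 → S.τ j b ≤ c := by
  simp [mx, Finset.fold_max_le]

theorem mx_nonneg (J0 J1 : ℕ) (b : X) : 0 ≤ mx S J0 J1 b := ((mx_le S).1 le_rfl).1

theorem le_mx {J0 J1 j : ℕ} (b : X) (h0 : J0 ≤ j) (h1 : j < J1) : S.τ j b ≤ mx S J0 J1 b :=
  ((mx_le S).1 le_rfl).2 j h0 h1

theorem mx_lip (J0 J1 : ℕ) (x y : X) : |mx S J0 J1 x - mx S J0 J1 y| ≤ dist x y := by
  have key : ∀ x y : X, mx S J0 J1 x ≤ mx S J0 J1 y + dist x y := fun x y =>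
    (mx_le S).2 ⟨add_nonneg (mx_nonneg S _ _ _) dist_nonneg, fun j h0 h1 => by
      have := le_mx S y h0 h1
      have := (abs_le.1 (S.τlip j x y)).2
      linarith⟩
  have h1 := key x y
  have h2 := key y x
  rw [dist_comm] at h2
  rw [abs_le]; constructor <;> linarith

/-- cut-off function -/
noncomputable def cut (a : ℝ) (J0 J1 : ℕ) (b : X) : ℝ :=
  max 0 (min 1 (2 - 4 / a * mx S J0 J1 b))

theorem cut_nonneg (a : ℝ) (J0 J1 : ℕ) (b : X) : 0 ≤ cut S a J0 J1 b := le_max_left _ _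

theorem cut_le_one (a : ℝ) (J0 J1 : ℕ) (b : X) : cut S a J0 J1 b ≤ 1 :=
  max_le zero_le_one (min_le_left _ _)

theorem cut_abs (a : ℝ) (J0 J1 : ℕ) (b : X) : |cut S a J0 J1 b| ≤ 1 := by
  rw [abs_of_nonneg (cut_nonneg S _ _ _ _)]; exact cut_le_one S _ _ _ _

theorem cut_lip {a : ℝ} (ha : 0 < a) (J0 J1 : ℕ) (x y : X) :
    |cut S a J0 J1 x - cut S a J0 J1 y| ≤ 4 / a * dist x y := by
  unfold cut
  refine (abs_max_sub_max_le_max _ _ _ _).trans (max_le (by simp; positivity) ?_)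
  refine (abs_min_sub_min_le_max _ _ _ _).trans (max_le (by simp; positivity) ?_)
  have : 2 - 4 / a * mx S J0 J1 x - (2 - 4 / a * mx S J0 J1 y) =
      -(4 / a) * (mx S J0 J1 x - mx S J0 J1 y) := by ring
  rw [this, abs_mul, abs_neg, abs_of_pos (by positivity)]
  exact mul_le_mul_of_nonneg_left (mx_lip S _ _ _ _) (by positivity)

theorem cut_BL {a : ℝ} (ha : 0 < a) (J0 J1 : ℕ) : BL (cut S a J0 J1) :=
  ⟨4 / a, 1, by positivity, cut_lip S ha J0 J1, cut_abs S a J0 J1⟩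

theorem cut_one {a : ℝ} (ha : 0 < a) {J0 J1 : ℕ} {b : X}
    (h : ∀ j, J0 ≤ j → j < J1 → S.τ j b ≤ a / 4) : cut S a J0 J1 b = 1 := by
  have h1 : mx S J0 J1 b ≤ a / 4 := (mx_le S).2 ⟨by positivity, h⟩
  have h2 : 4 / a * mx S J0 J1 b ≤ 1 := by
    calc _ ≤ 4 / a * (a / 4) := by gcongr
      _ = 1 := by field_simp
  unfold cut
  rw [min_eq_left (by linarith), max_eq_right zero_le_one]

theorem cut_zero {a : ℝ} (ha : 0 < a) {J0 J1 j : ℕ} {b : X} (h0 : J0 ≤ j) (h1 : j < J1)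
    (h : a / 2 ≤ S.τ j b) : cut S a J0 J1 b = 0 := by
  have h2 : 2 ≤ 4 / a * mx S J0 J1 b := by
    calc (2 : ℝ) = 4 / a * (a / 2) := by field_simp; norm_num
      _ ≤ _ := by gcongr; exact h.trans (le_mx S b h0 h1)
  unfold cut
  exact max_eq_left ((min_le_right _ _).trans (by linarith))

theorem cut_Q (a : ℝ) {J0 J1 n : ℕ} (hn : J1 ≤ n) (b : X) :
    cut S a J0 J1 (S.Q n b) = cut S a J0 J1 b := by
  have : mx S J0 J1 (S.Q n b) = mx S J0 J1 b := by
    unfold mx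
    refine Finset.fold_congr fun j hj => ?_
    rw [S.τQ, if_pos ((Finset.mem_Ico.1 hj).2.trans_le hn)]
  unfold cut; rw [this]

theorem cut_P (a : ℝ) (J0 J1 J : ℕ) (b : X) :
    cut S a J0 J1 (S.P J b) = cut S a J0 (min J J1) b := by
  have : mx S J0 J1 (S.P J b) = mx S J0 (min J J1) b := by
    apply le_antisymm
    · refine (mx_le S).2 ⟨mx_nonneg S _ _ _, fun j h0 h1 => ?_⟩
      rw [S.τP]; split_ifs with h
      · exact le_mx S b h0 (lt_min h h1)
      · exact mx_nonneg S _ _ _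
    · refine (mx_le S).2 ⟨mx_nonneg S _ _ _, fun j h0 h1 => ?_⟩
      have := le_mx S (S.P J b) h0 (lt_min_iff.1 h1).2
      rwa [S.τP, if_pos (lt_min_iff.1 h1).1] at this
  unfold cut; rw [this]

theorem cut_thr {a : ℝ} (ha : 0 < a) (J0 J1 J : ℕ) (b : X)
    (h : ∀ j, J ≤ j → S.τ j b ≤ a / 4) : cut S a J0 J1 (S.P J b) = cut S a J0 J1 b := by
  rw [cut_P]
  rcases le_or_gt (mx S J0 J1 b) (a / 4) with h1 | h1
  · have h2 := ((mx_le S).1 h1).2
    rw [cut_one S ha h2, cut_one S ha fun j h0 hj => h2 j h0 (lt_min_iff.1 hj).2]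
  · have : mx S J0 (min J J1) b = mx S J0 J1 b := by
      apply le_antisymm
      · exact (mx_le S).2 ⟨mx_nonneg S _ _ _, fun j h0 hj => le_mx S b h0 (lt_min_iff.1 hj).2⟩
      · by_contra hlt
        push Not at hlt
        have : mx S J0 J1 b ≤ max (mx S J0 (min J J1) b) (a / 4) :=
          (mx_le S).2 ⟨le_max_of_le_left (mx_nonneg S _ _ _), fun j h0 hj => by
            rcases lt_or_ge j J with hJ | hJ
            · exact le_max_of_le_left (le_mx S b h0 (lt_min hJ hj))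
            · exact le_max_of_le_right (h j hJ)⟩
        rcases le_max_iff.1 this with h' | h' <;> linarith
    unfold cut; rw [this]

theorem dep_mono {E : Type} {f : X → E} {n m : ℕ} (h : ∀ b, f (S.Q n b) = f b) (hnm : n ≤ m)
    (b : X) : f (S.Q m b) = f b := by
  rw [← h (S.Q m b), S.QQ _ _ _ hnm, h]

theorem dep_P {E : Type} {f : X → E} {n J : ℕ} (h : ∀ b, f (S.Q n b) = f b) (hnm : n ≤ J)
    (b : X) : f (S.P J b) = f b := by
  rw [← h (S.P J b), S.QP _ _ _ hnm, h]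

end cut

/-- parameters of a tame class -/
structure Params (S : Setup X) (H : Type) [NormedAddCommGroup H] [InnerProductSpace ℝ H] where
  C : ℝ
  s : ℕ → ℝ
  R : ℕ → ℝ
  Cn : ℕ → Finset X
  ρ : ℕ → ℝ
  J0 : ℕ → ℕ
  D : ℕ → ℝ
  K : ℕ → ℕ → Set (X → ℝ)
  C0 : 0 ≤ C
  spos : ∀ n, 0 < s n
  srat : Tendsto (fun n => s (n + 1) / s n) atTop (𝓝 0)
  Rmono : Monotone R
  Rlim : Tendsto R atTop atTop
  Rpos : ∀ K, 0 < R K
  Cne : ∀ n, (Cn n).Nonempty
  ρpos : ∀ K, 0 < ρ K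
  ρanti : Antitone ρ
  J0mono : Monotone J0
  Dmono : Monotone D
  Dnn : ∀ K, 0 ≤ D K
  Kdom : ∀ k J, Dom H (K k J)

variable {S : Setup X} {H : Type} [NormedAddCommGroup H] [InnerProductSpace ℝ H]

structure Mid (π : Params S H) (K : ℕ) (m : X → ℝ) : Prop where
  lip : ∀ x y, |m x - m y| ≤ π.C * dist x y
  dep : ∃ n, ∀ b, m (S.Q n b) = m b
  thr : ∀ J b, π.J0 K ≤ J → (∀ j, J ≤ j → S.τ j b < π.ρ K) → m (S.P J b) = m b
  dom : ∀ J, (fun b => m (S.P J b)) ∈ π.K K J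
  bdd : ∀ b, |m b| ≤ π.D K

structure Adm (π : Params S H) (f : X → ℝ) (c : ℕ → X) (mid : ℕ → X → ℝ) (Kf : ℕ) : Prop where
  lip : ∀ x y, |f x - f y| ≤ dist x y
  cmem : ∀ n, c n ∈ π.Cn n
  mid_ok : ∀ K, Mid π K (mid K)
  meq : ∀ K, Kf ≤ K → mid K = f
  supp : ∀ K b, f b ≠ mid K b → (∃ j, π.R K < S.τ j b) ∨
    ∃ n, K ≤ n ∧ n < Kf ∧ dist (S.Q n b) (c n) < π.s n

def cls (π : Params S H) : Set (X → ℝ) := {f | ∃ c mid Kf, Adm π f c mid Kf}

end Crest.Agent.LE
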