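import Crest.Agent.LE.Dom

set_option autoImplicit false
open Filter Topology Finset

namespace Crest.Agent.LE

variable {X : Type} [MetricSpace X]
variable {S : Setup X} {H : Type} [NormedAddCommGroup H] [InnerProductSpace ℝ H]

theorem cut_min (a : ℝ) (j1 j2 J : ℕ) (h : j2 ≤ J) : cut S a j1 j2 = cut S a (min j1 J) j2 := by
  funext b
  have : Finset.Ico j1 j2 = Finset.Ico (min j1 J) j2 := by
    ext j; simp only [Finset.mem_Ico]; omega
  unfold cut mx; rw [this]

theorem mul_lip {f g : X → ℝ} {L D M : ℝ} (hf : ∀ x y, |f x - f y| ≤ L * dist x y)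
    (hD : ∀ x, |f x| ≤ D) (hg : ∀ x y, |g x - g y| ≤ M * dist x y) (hg1 : ∀ x, |g x| ≤ 1)
    (x y : X) : |f x * g x - f y * g y| ≤ (L + D * M) * dist x y := by
  have e : f x * g x - f y * g y = (f x - f y) * g x + f y * (g x - g y) := by ring
  rw [e]
  refine (abs_add_le _ _).trans ?_
  rw [abs_mul, abs_mul]
  have t1 : |f x - f y| * |g x| ≤ L * dist x y :=
    (mul_le_of_le_one_right (abs_nonneg _) (hg1 x)).trans (hf x y)
  have t2 : |f y| * |g x - g y| ≤ D * (M * dist x y) :=
    mul_le_mul (hD y) (hg x y) (abs_nonneg _) ((abs_nonneg _).trans (hD y))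
  nlinarith

theorem esc_adm (π : Params S H) (K0 : ℕ) : ∃ (C' : ℝ) (π' : Params S H), 0 < C' ∧
    ∀ (N : ℕ) (m : ℕ → X → ℝ) (J : ℕ → ℕ) (e : ℕ → ℝ), (∀ l, Mid π K0 (m l)) → StrictMono J →
      π.J0 K0 ≤ J 0 → (∀ l b, m l (S.Q (J (l + 1)) b) = m l b) → (∀ l, |e l| ≤ 1) →
      (fun b => (∑ l ∈ range N, e l *
        ((m l b - m l (S.P (J l) b)) * cut S (π.ρ K0) (J (l + 1)) (J N) b)) / C') ∈ cls π' := by
  classical
  set ρ := π.ρ K0 with hρ
  have hρ0 : 0 < ρ := π.ρpos K0
  set D := π.D K0 with hD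
  have hD0 : 0 ≤ D := π.Dnn K0
  have hC0 := π.C0
  set C' : ℝ := 2 * π.C + 2 * D * (4 / ρ) + 1 with hC'
  have hC1 : 1 ≤ C' := by have : 0 ≤ 2 * π.C + 2 * D * (4 / ρ) := by positivity
                          linarith
  have hC'0 : 0 < C' := by linarith
  -- dominated families
  let T0 : ℕ → Set (X → ℝ) := fun J => {g | ∃ g1 ∈ π.K K0 J,
    ∃ g2 ∈ {g | ∃ i ∈ range (J + 1), g ∈ π.K K0 i}, g = fun b => g1 b - g2 b}
  have hT0 : ∀ J, Dom H (T0 J) := fun J =>
    (π.Kdom K0 J).sub (Dom.biUnion _ _ fun i _ => π.Kdom K0 i)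
  let T1 : ℕ → Set (X → ℝ) := fun J => {g | ∃ p ∈ range (J + 1) ×ˢ range (J + 1),
    g ∈ {g | ∃ g1 ∈ T0 J, g = fun b => g1 b * cut S ρ p.1 p.2 b}}
  have hT1 : ∀ J, Dom H (T1 J) := fun J =>
    Dom.biUnion _ _ fun p _ => (hT0 J).mul _ (cut_BL S hρ0 _ _)
  let T2 : ℕ → Set (X → ℝ) := fun J => {g | ∃ g1 ∈ T1 J, ∃ e : ℝ, |e| ≤ 1 ∧ g = fun b => e * g1 b}
  let T3 : ℕ → Set (X → ℝ) := fun J => {g | ∃ n ≤ J, ∃ G : ℕ → X → ℝ, (∀ l < n, G l ∈ T2 J) ∧
      g = fun b => ∑ l ∈ Finset.range n, G l b}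
  let T4 : ℕ → Set (X → ℝ) := fun J => {g | ∃ g1 ∈ T3 J, ∃ e : ℝ, |e| ≤ 1 ∧ g = fun b => e * g1 b}
  have hT4 : ∀ J, Dom H (T4 J) := fun J => ((hT1 J).smul.sum J).smul
  let π' : Params S H :=
    { C := 1, s := π.s, R := π.R, Cn := π.Cn, ρ := fun _ => ρ / 4, J0 := fun _ => π.J0 K0,
      D := fun _ => 2 * D, K := fun _ J => T4 J, C0 := zero_le_one, spos := π.spos,
      srat := π.srat, Rmono := π.Rmono, Rlim := π.Rlim, Rpos := π.Rpos, Cne := π.Cne,
      ρpos := fun _ => by positivity, ρanti := antitone_const, J0mono := monotone_const,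
      Dmono := monotone_const, Dnn := fun _ => by positivity, Kdom := fun _ J => hT4 J }
  refine ⟨C', π', hC'0, fun N m J e hm hJ hJ0 hdep he => ?_⟩
  set t : ℕ → X → ℝ := fun l b => m l b - m l (S.P (J l) b) with ht
  set u : ℕ → X → ℝ := fun l b => e l * (t l b * cut S ρ (J (l + 1)) (J N) b) with hu
  set F : X → ℝ := fun b => (∑ l ∈ range N, u l b) / C' with hF
  change F ∈ cls π'
  have hJ0' : ∀ l, π.J0 K0 ≤ J l := fun l => hJ0.trans (hJ.monotone (Nat.zero_le l))
  have tb : ∀ l b, |t l b| ≤ 2 * D := fun l b => by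
    have h1 := (hm l).bdd b
    have h2 := (hm l).bdd (S.P (J l) b)
    have := abs_sub (m l b) (m l (S.P (J l) b))
    simp only [ht]; linarith
  have tl : ∀ l x y, |t l x - t l y| ≤ 2 * π.C * dist x y := fun l x y => by
    have h1 := (hm l).lip x y
    have h2 := (hm l).lip (S.P (J l) x) (S.P (J l) y)
    have h3 := mul_le_mul_of_nonneg_left (S.Plip (J l) x y) hC0
    have e1 : t l x - t l y = (m l x - m l y) - (m l (S.P (J l) x) - m l (S.P (J l) y)) := by
      simp only [ht]; ring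
    rw [e1]
    have := abs_sub (m l x - m l y) (m l (S.P (J l) x) - m l (S.P (J l) y))
    linarith
  have tQ : ∀ l b, t l (S.Q (J (l + 1)) b) = t l b := fun l b => by
    simp only [ht]; rw [hdep, S.PQ, hdep]
  have t0 : ∀ l x, (∀ j, J l ≤ j → j < J (l + 1) → S.τ j x < ρ) → t l x = 0 := fun l x h => by
    rw [← tQ]
    simp only [ht]
    rw [(hm l).thr (J l) _ (hJ0' l), sub_self]
    intro j hj
    rw [S.τQ]; split_ifs with h1
    exacts [h j hj h1, hρ0]
  have ul : ∀ l x y, |u l x - u l y| ≤ C' * dist x y := fun l x y => by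
    simp only [hu]
    rw [← mul_sub, abs_mul]
    refine (mul_le_of_le_one_left (abs_nonneg _) (he l)).trans ?_
    refine (mul_lip (tl l) (tb l) (cut_lip S hρ0 _ _) (cut_abs S _ _ _) x y).trans ?_
    exact mul_le_mul_of_nonneg_right (by linarith) dist_nonneg
  have ub : ∀ l x, |u l x| ≤ 2 * D := fun l x => by
    simp only [hu]
    rw [abs_mul, abs_mul]
    refine (mul_le_of_le_one_left (by positivity) (he l)).trans ?_
    exact (mul_le_of_le_one_right (abs_nonneg _) (cut_abs S _ _ _ _)).trans (tb l x)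
  have locl : ∀ b, ∃ r > 0, ∃ l0, ∀ l < N, l ≠ l0 → ∀ x, dist x b < r → u l x = 0 := by
    intro b
    have inact : ∀ l, (¬ ∃ j, J l ≤ j ∧ j < J (l + 1) ∧ ρ / 2 < S.τ j b) →
        ∀ x, dist x b < ρ / 2 → u l x = 0 := by
      intro l hl x hx
      push Not at hl
      have : t l x = 0 := t0 l x fun j h0 h1 => by
        have := hl j h0 h1
        have := (abs_le.1 (S.τlip j x b)).2
        linarith
      simp only [hu]; rw [this]; simp
    by_cases hact : ∃ l < N, ∃ j, J l ≤ j ∧ j < J (l + 1) ∧ ρ / 2 < S.τ j b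
    · set A := (range N).filter fun l => ∃ j, J l ≤ j ∧ j < J (l + 1) ∧ ρ / 2 < S.τ j b with hA
      have hne : A.Nonempty := by
        obtain ⟨l, hl, h⟩ := hact; exact ⟨l, by simp only [hA, mem_filter, mem_range]; exact ⟨hl, h⟩⟩
      have hmem := A.max'_mem hne
      set l0 := A.max' hne with hl0
      simp only [hA, mem_filter, mem_range] at hmem
      obtain ⟨hl0N, j, hj0, hj1, hj⟩ := hmem
      refine ⟨min (ρ / 2) (S.τ j b - ρ / 2), lt_min (by positivity) (by linarith), l0,
        fun l hl hne' x hx => ?_⟩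
      rcases lt_or_gt_of_ne hne' with h | h
      · have : cut S ρ (J (l + 1)) (J N) x = 0 := by
          refine cut_zero S hρ0 (j := j) ((hJ.monotone h).trans hj0)
            (hj1.trans_le (hJ.monotone hl0N)) ?_
          have := (abs_le.1 (S.τlip j x b)).1
          have := (lt_min_iff.1 hx).2
          linarith
        simp only [hu]; rw [this]; simp
      · refine inact l (fun hex => ?_) x (lt_min_iff.1 hx).1
        have : l ≤ l0 := A.le_max' l (by simp only [hA, mem_filter, mem_range]; exact ⟨hl, hex⟩)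
        omega
    · exact ⟨ρ / 2, by positivity, N, fun l hl _ x hx => inact l (fun h => hact ⟨l, hl, h⟩) x hx⟩
  have sum_eq : ∀ (l0 : ℕ) (x : X), (∀ l < N, l ≠ l0 → u l x = 0) →
      ∑ l ∈ range N, u l x = if l0 < N then u l0 x else 0 := by
    intro l0 x h
    split_ifs with h0
    · exact Finset.sum_eq_single_of_mem l0 (mem_range.2 h0) fun l hl hne => h l (mem_range.1 hl) hne
    · exact Finset.sum_eq_zero fun l hl => h l (mem_range.1 hl) (by have := mem_range.1 hl; omega)
  have Flip : ∀ x y, |F x - F y| ≤ 1 * dist x y := by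
    refine S.loc F 1 fun b => ?_
    obtain ⟨r, hr, l0, h⟩ := locl b
    refine ⟨r, hr, fun x y hx hy => ?_⟩
    simp only [hF]
    rw [sum_eq l0 x fun l hl hne => h l hl hne x hx, sum_eq l0 y fun l hl hne => h l hl hne y hy,
      ← sub_div, abs_div, abs_of_pos hC'0, div_le_iff₀ hC'0]
    split_ifs
    · linarith [ul l0 x y]
    · simp; positivity
  have Fb : ∀ b, |F b| ≤ 2 * D := by
    intro b
    obtain ⟨r, hr, l0, h⟩ := locl b
    simp only [hF]
    rw [sum_eq l0 b fun l hl hne => h l hl hne b (by simpa using hr), abs_div, abs_of_pos hC'0,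
      div_le_iff₀ hC'0]
    split_ifs
    · nlinarith [ub l0 b]
    · simp; positivity
  have hMid : ∀ K, Mid π' K F := by
    intro K
    refine ⟨Flip, ⟨J N, fun b => ?_⟩, fun J' b hJ' hb => ?_, fun J' => ?_, Fb⟩
    · simp only [hF]
      congr 1
      refine Finset.sum_congr rfl fun l hl => ?_
      simp only [hu]
      rw [cut_Q S _ le_rfl, dep_mono S (tQ l) (hJ.monotone (mem_range.1 hl))]
    · change π.J0 K0 ≤ J' at hJ'
      change ∀ j, J' ≤ j → S.τ j b < ρ / 4 at hb
      simp only [hF]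
      congr 1
      refine Finset.sum_congr rfl fun l hl => ?_
      simp only [hu, ht]
      rw [cut_thr S hρ0 _ _ _ _ fun j hj => (hb j hj).le,
        (hm l).thr J' b hJ' fun j hj => by have := hb j hj; linarith]
      have : m l (S.P (J l) (S.P J' b)) = m l (S.P (J l) b) := by
        rw [S.PP, min_comm, ← S.PP]
        refine (hm l).thr J' _ hJ' fun j hj => ?_
        rw [S.τP]; split_ifs
        · have := hb j hj; linarith
        · exact hρ0
      rw [this]
    · change _ ∈ T4 J'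
      refine ⟨_, ⟨min N J', min_le_right _ _, fun l b => u l (S.P J' b), fun l hl => ?_, rfl⟩,
        C'⁻¹, ?_, ?_⟩
      · refine ⟨_, ⟨(min (J (l + 1)) J', min J' (J N)), ?_, _,
          ⟨_, (hm l).dom J', _, ⟨min (J l) J', ?_, (hm l).dom _⟩, rfl⟩, rfl⟩, e l, he l, ?_⟩
        · simp only [mem_product, mem_range]; omega
        · simp only [mem_range]; omega
        · funext b
          simp only [hu, ht]
          rw [cut_P, S.PP, cut_min _ (J (l + 1)) _ J' (min_le_left _ _)]
      · rw [abs_of_pos (inv_pos.2 hC'0)]; exact inv_le_one_of_one_le₀ hC1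
      · funext b
        simp only [hF]
        rw [div_eq_inv_mul]
        congr 1
        symm
        refine Finset.sum_subset (fun l hl => ?_) fun l hl hl' => ?_
        · simp only [mem_range] at hl ⊢; omega
        · simp only [mem_range] at hl hl'
          have : J' ≤ J l := le_trans (show J' ≤ l by omega) (hJ.id_le l)
          simp only [hu, ht]
          rw [S.PP, min_eq_right this]; simp
  choose c hc using π.Cne
  exact ⟨c, fun _ => F, 0, fun x y => by simpa using Flip x y, hc, hMid, fun _ _ => rfl,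
    fun _ _ h => absurd rfl h⟩

end Crest.Agent.LE
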