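import Crest.Agent.LE.NegAdm

set_option autoImplicit false
open Filter Topology Finset

namespace Crest.Agent.LE

variable {X : Type} [MetricSpace X]
variable {S : Setup X} {H : Type} [NormedAddCommGroup H] [InnerProductSpace ℝ H]

theorem exists_seq (Rel : ℕ → ℕ → ℕ → ℕ → Prop) (J0 : ℕ)
    (h : ∀ l I J, J0 ≤ J → ∃ i J', I ≤ i ∧ J < J' ∧ Rel l i J J') :
    ∃ idx J : ℕ → ℕ, StrictMono idx ∧ StrictMono J ∧ J 0 = J0 ∧
      ∀ l, Rel l (idx l) (J l) (J (l + 1)) := by
  choose! F G hF hG hR using h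
  let σ : ℕ → ℕ × ℕ := fun l => Nat.rec (0, J0) (fun l p => (F l p.1 p.2 + 1, G l p.1 p.2)) l
  have hσ : ∀ l, σ (l + 1) = (F l (σ l).1 (σ l).2 + 1, G l (σ l).1 (σ l).2) := fun l => rfl
  have h0 : ∀ l, J0 ≤ (σ l).2 := fun l => by
    induction l with
    | zero => exact le_rfl
    | succ l ih => rw [hσ]; exact ih.trans (hG l _ _ ih).le
  refine ⟨fun l => F l (σ l).1 (σ l).2, fun l => (σ l).2, strictMono_nat_of_lt_succ fun l => ?_,
    strictMono_nat_of_lt_succ fun l => ?_, rfl, fun l => hR l _ _ (h0 l)⟩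
  · have := hF (l + 1) (σ (l + 1)).1 _ (h0 (l + 1))
    have e : (σ (l + 1)).1 = F l (σ l).1 (σ l).2 + 1 := rfl
    omega
  · exact hG l _ _ (h0 l)

theorem supp_small (S : Setup X) (μ : X →₀ ℝ) {a : ℝ} (ha : 0 < a) :
    ∀ᶠ J in atTop, ∀ b ∈ μ.support, ∀ j, J ≤ j → S.τ j b ≤ a := by
  rw [Filter.eventually_all_finset]
  intro b _
  obtain ⟨N, hN⟩ := eventually_atTop.1 ((S.τlim b).eventually (ge_mem_nhds ha))
  filter_upwards [eventually_ge_atTop N] with J hJ j hj using hN j (hJ.trans hj)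

theorem supp_bdd (S : Setup X) (μ : X →₀ ℝ) {R : ℕ → ℝ} (hR : Tendsto R atTop atTop) :
    ∀ᶠ K in atTop, ∀ b ∈ μ.support, ∀ j, S.τ j b ≤ R K / 4 := by
  rw [Filter.eventually_all_finset]
  intro b _
  obtain ⟨D, hD⟩ := (S.τlim b).bddAbove_range
  filter_upwards [hR.eventually (eventually_ge_atTop (4 * D))] with K hK j
  have := hD ⟨j, rfl⟩
  simp only at this
  linarith

variable (S H) in
def Kind (C : Set (X → ℝ)) : Prop :=
  (∃ π : Params S H, C = cls π) ∨
    ∃ (A : X → H) (L : ℝ), 0 < L ∧ (∀ x y, ‖A x - A y‖ ≤ L * dist x y) ∧ C = sing A L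

theorem Kind.lip {C : Set (X → ℝ)} (h : Kind S H C) : ∀ f ∈ C, ∀ x y, |f x - f y| ≤ dist x y := by
  rcases h with ⟨π, rfl⟩ | ⟨A, L, hL, hA, rfl⟩
  · rintro f ⟨c, mid, Kf, h⟩; exact h.lip
  · rintro f ⟨h, hh, rfl⟩ x y
    rw [← sub_div, ← inner_sub_right, abs_div, abs_of_pos hL, div_le_iff₀ hL]
    calc _ ≤ ‖h‖ * ‖A x - A y‖ := abs_real_inner_le_norm _ _
      _ ≤ 1 * (L * dist x y) := mul_le_mul hh (hA x y) (norm_nonneg _) zero_le_one
      _ = _ := by ring

theorem cls_good (π : Params S H) : ∃ 𝒮 : Set (Set (X → ℝ)), 𝒮.Countable ∧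
    (∀ D ∈ 𝒮, Kind S H D) ∧ ∀ w : ℕ → X →₀ ℝ, (∀ D ∈ 𝒮, WUC D w) → Null (cls π) w := by
  classical
  obtain ⟨n0, hl⟩ := exists_lac π
  obtain ⟨Cn, πn, hCn, hn⟩ := neg_adm π hl
  choose Ce πe hCe he using esc_adm π
  choose T hTc hTk hT using fun p : ℕ × ℕ => (π.Kdom p.1 p.2).exists_sing
  refine ⟨{cls πn} ∪ Set.range (fun K => cls (πe K)) ∪ ⋃ p, T p,
    ((Set.countable_singleton _).union (Set.countable_range _)).union (Set.countable_iUnion hTc),
    ?_, fun w hw => ?_⟩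
  · rintro D ((rfl | ⟨K, rfl⟩) | hD)
    · exact Or.inl ⟨_, rfl⟩
    · exact Or.inl ⟨_, rfl⟩
    · obtain ⟨p, hp⟩ := Set.mem_iUnion.1 hD
      exact Or.inr (hTk p D hp)
  have hK : ∀ k J, Null (π.K k J) w := fun k J =>
    hT (k, J) w fun D hD => hw D (Or.inr (Set.mem_iUnion.2 ⟨(k, J), hD⟩))
  intro α hα
  by_contra hcon
  rw [Filter.not_eventually] at hcon
  push Not at hcon
  obtain ⟨i0, f0, hf0, -⟩ := hcon.exists
  have hch : ∀ i, ∃ f ∈ cls π, (∃ f ∈ cls π, α < |pr (w i) f|) → α < |pr (w i) f| := fun i => by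
    by_cases h : ∃ f ∈ cls π, α < |pr (w i) f|
    · obtain ⟨f, hf, h⟩ := h; exact ⟨f, hf, fun _ => h⟩
    · exact ⟨f0, hf0, fun h' => absurd h' h⟩
  choose f hf hfα using hch
  choose c mid Kf hadm using hf
  have hbad : ∃ᶠ i in atTop, α < |pr (w i) (f i)| := hcon.mono fun i hi => hfα i hi
  by_cases hA : ∃ K, ∃ β > 0, ∃ᶠ i in atTop, β ≤ |pr (w i) (mid i K)|
  · obtain ⟨K, β, hβ, hfr⟩ := hA
    have hρ := π.ρpos K
    obtain ⟨idx, J, hidx, hJ, hJ0, hrel⟩ := exists_seq (fun l i J J' =>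
      β ≤ |pr (w i) (mid i K)| ∧ |pr (w i) fun b => mid i K (S.P J b)| ≤ β / 2 ∧
      (∀ b, mid i K (S.Q J' b) = mid i K b) ∧
      ∀ b ∈ (w i).support, ∀ j, J' ≤ j → S.τ j b ≤ π.ρ K / 4) (π.J0 K) (by
        intro l I J _
        obtain ⟨i, h1, h2, h3⟩ := (hfr.and_eventually ((hK K J (β / 2) (by positivity)).and
          (eventually_ge_atTop I))).exists
        obtain ⟨n, hn⟩ := ((hadm i).mid_ok K).dep
        obtain ⟨J', h4, h5, h6⟩ := ((supp_small S (w i) (show 0 < π.ρ K / 4 by positivity)).and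
          ((eventually_gt_atTop J).and (eventually_ge_atTop n))).exists
        exact ⟨i, J', h3, h5, h1, h2 _ (((hadm i).mid_ok K).dom J), dep_mono S hn h6, h4⟩)
    refine no_combo (cls (πe K)) w (hw _ (Or.inl (Or.inr ⟨K, rfl⟩))) idx hidx (Ce K) (β / 2)
      (hCe K) (by positivity) (fun N l b => (mid (idx l) K b - mid (idx l) K (S.P (J l) b)) *
        cut S (π.ρ K) (J (l + 1)) (J N) b) (fun N l _ => ?_) fun N e he1 =>
      he K N (fun l => mid (idx l) K) J e (fun l => (hadm _).mid_ok K) hJ hJ0.ge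
        (fun l => (hrel l).2.2.1) he1
    obtain ⟨h1, h2, -, h4⟩ := hrel l
    rw [pr_congr (B := fun b => mid (idx l) K b - mid (idx l) K (S.P (J l) b)) _ fun b hb => by
      rw [cut_one S hρ fun j hj _ => h4 b hb j hj, mul_one], pr_fsub]
    have := abs_sub_abs_le_abs_sub (pr (w (idx l)) (mid (idx l) K))
      (pr (w (idx l)) fun b => mid (idx l) K (S.P (J l) b))
    linarith
  · push Not at hA
    have hC := π.C0
    obtain ⟨idx, K, hidx, hKm, hK0, hrel⟩ := exists_seq (fun l i K K' =>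
      α < |pr (w i) (f i)| ∧ |pr (w i) (mid i K)| < α / 4 ∧ Kf i ≤ K' ∧
      (∀ b, f i (S.Q K' b) - mid i K (S.Q K' b) = f i b - mid i K b) ∧
      (∀ b, |f i b - mid i K b| * (4 / π.R K') ≤ (1 / 2) ^ l) ∧
      (∑ b ∈ (w i).support, |w i b|) * ((1 + π.C) * (π.s (K' - 1) / 4)) ≤ α / 4 ∧
      ∀ b ∈ (w i).support, ∀ j, S.τ j b ≤ π.R K' / 4) n0 (by
        intro l I K _
        obtain ⟨i, h1, h2, h3⟩ := (hbad.and_eventually ((hA K (α / 4) (by positivity)).and
          (eventually_ge_atTop I))).exists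
        obtain ⟨n1, hn1⟩ := ((hadm i).mid_ok K).dep
        obtain ⟨n2, hn2⟩ := ((hadm i).mid_ok (Kf i)).dep
        have hb2 := ((hadm i).mid_ok (Kf i)).bdd
        rw [(hadm i).meq _ le_rfl] at hn2 hb2
        have t1 : Tendsto (fun K' => (π.D (Kf i) + π.D K) * (4 / π.R K')) atTop (𝓝 0) := by
          simpa using (π.Rlim.const_div_atTop 4).const_mul (π.D (Kf i) + π.D K)
        have t2 : Tendsto (fun K' => (∑ b ∈ (w i).support, |w i b|) *
            ((1 + π.C) * (π.s (K' - 1) / 4))) atTop (𝓝 0) := by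
          simpa using (((((s_tendsto π).comp (tendsto_sub_atTop_nat 1)).div_const 4).const_mul
            (1 + π.C)).const_mul (∑ b ∈ (w i).support, |w i b|))
        obtain ⟨K', h4, h5, h6, h7, h8, h9, h10⟩ := ((supp_bdd S (w i) π.Rlim).and
          ((eventually_gt_atTop K).and ((eventually_ge_atTop n1).and ((eventually_ge_atTop n2).and
          ((eventually_ge_atTop (Kf i)).and
          ((t1.eventually (ge_mem_nhds (show (0 : ℝ) < (1 / 2) ^ l by positivity))).and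
          (t2.eventually (ge_mem_nhds (show (0 : ℝ) < α / 4 by positivity))))))))).exists
        refine ⟨i, K', h3, h5, h1, h2, h8, fun b => ?_, fun b => le_trans ?_ h9, h10, h4⟩
        · rw [dep_mono S hn1 h6, dep_mono S hn2 h7]
        · refine mul_le_mul_of_nonneg_right ((abs_sub _ _).trans
            (add_le_add (hb2 b) (((hadm i).mid_ok K).bdd b))) ?_
          have := π.Rpos K'; positivity)
    set L : ℕ → ℕ := fun n => Nat.findGreatest (fun l => K l ≤ n) n with hL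
    have hd : NegData π n0 (fun l => f (idx l)) (fun l => c (idx l)) (fun l => mid (idx l))
        (fun l => Kf (idx l)) K (fun n => c (idx (L n)) n) :=
      ⟨fun l => hadm _, hKm, hK0.ge, fun l => (hrel l).2.2.1, fun l => (hrel l).2.2.2.1,
        fun l => (hrel l).2.2.2.2.1, fun n => (hadm _).cmem n, fun l n h1 h2 => by
          have a1 : l ≤ L n := Nat.le_findGreatest ((hKm.id_le l).trans h1) h1
          have a2 : K (L n) ≤ n := Nat.findGreatest_spec (P := fun l => K l ≤ n)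
            ((hKm.id_le l).trans h1) h1
          have a3 : L n < l + 1 := hKm.lt_iff_lt.1 (a2.trans_lt h2)
          rw [show L n = l by omega]⟩
    refine no_combo (cls πn) w (hw _ (Or.inl (Or.inl rfl))) idx hidx Cn (α / 2) hCn
      (by positivity) (fun N l => nu π (fun l => f (idx l)) (fun l => mid (idx l)) K
        (fun n => c (idx (L n)) n) (K N) (K N) l) (fun N l _ => ?_) fun N e he1 =>
      hn N _ _ _ _ K _ e hd he1
    obtain ⟨h1, h2, -, h4, -, h6, h7⟩ := hrel l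
    have hKl : K l < K (l + 1) := hKm (Nat.lt_add_one l)
    have hKl0 : n0 ≤ K l := hd.k0.trans (hKm.monotone (Nat.zero_le l))
    have h8 := pr_abs_le (w (idx l)) (nu π (fun l => f (idx l)) (fun l => mid (idx l)) K
        (fun n => c (idx (L n)) n) (K N) (K N) l) (fun b => f (idx l) b - mid (idx l) (K l) b)
        ((1 + π.C) * (π.s (K (l + 1) - 1) / 4)) fun b hb => by
      unfold nu
      rw [cut_one S (π.Rpos _) fun j _ _ => h7 b hb j, mul_one, ← h4, ← h4 b]
      refine (hd.tlip l _ _).trans (mul_le_mul_of_nonneg_left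
        ((Th_disp π _ le_rfl _ _).trans ?_) (by linarith))
      have := hl.sum (show n0 ≤ K (l + 1) - 1 by omega) (K N)
      rwa [show K (l + 1) - 1 + 1 = K (l + 1) by omega] at this
    rw [pr_fsub] at h8
    have a1 := abs_sub_abs_le_abs_sub (pr (w (idx l)) (f (idx l))) (pr (w (idx l)) (mid (idx l) (K l)))
    have a2 := abs_sub_abs_le_abs_sub (pr (w (idx l)) (f (idx l)) - pr (w (idx l)) (mid (idx l) (K l)))
      (pr (w (idx l)) (nu π (fun l => f (idx l)) (fun l => mid (idx l)) K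
        (fun n => c (idx (L n)) n) (K N) (K N) l))
    rw [abs_sub_comm] at h8
    linarith

theorem Kind.good {C : Set (X → ℝ)} (h : Kind S H C) : ∃ 𝒮 : Set (Set (X → ℝ)), 𝒮.Countable ∧
    (∀ D ∈ 𝒮, Kind S H D) ∧ ∀ w : ℕ → X →₀ ℝ, (∀ D ∈ 𝒮, WUC D w) → Null C w := by
  rcases h with ⟨π, rfl⟩ | ⟨A, L, hL, hA, rfl⟩
  · exact cls_good π
  · refine ⟨{sing A L}, Set.countable_singleton _, ?_, fun w hw => sing_null A L hL w (hw _ rfl)⟩
    rintro D rfl; exact Or.inr ⟨A, L, hL, hA, rfl⟩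

/-- the closed family of classes -/
theorem exists_family (π : Params S H) : ∃ F : ℕ → Set (X → ℝ), F 0 = cls π ∧
    (∀ n, ∀ f ∈ F n, ∀ x y, |f x - f y| ≤ dist x y) ∧
    ∀ w : ℕ → X →₀ ℝ, (∀ n, WUC (F n) w) → ∀ n, Null (F n) w := by
  have key : ∀ C : {C // Kind S H C}, ∃ g : ℕ → {C // Kind S H C},
      ∀ w : ℕ → X →₀ ℝ, (∀ n, WUC (g n).1 w) → Null C.1 w := by
    rintro ⟨C, hC⟩
    obtain ⟨𝒮, h1, h2, h3⟩ := hC.good
    obtain ⟨g, hg⟩ := (h1.insert C).exists_eq_range (Set.insert_nonempty _ _)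
    have hk : ∀ n, Kind S H (g n) := fun n => by
      have : g n ∈ insert C 𝒮 := hg ▸ ⟨n, rfl⟩
      rcases this with h | h
      exacts [h ▸ hC, h2 _ h]
    refine ⟨fun n => ⟨g n, hk n⟩, fun w hw => h3 w fun D hD => ?_⟩
    obtain ⟨n, rfl⟩ : D ∈ Set.range g := hg ▸ Set.mem_insert_of_mem _ hD
    exact hw n
  choose g hg using key
  let node : List ℕ → {C // Kind S H C} := fun l =>
    List.rec ⟨cls π, Or.inl ⟨π, rfl⟩⟩ (fun k _ C => g C k) l
  obtain ⟨e, he⟩ := exists_surjective_nat (List ℕ)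
  let F : ℕ → {C // Kind S H C} := fun n => Nat.casesOn n (node []) fun n => node (e n)
  refine ⟨fun n => (F n).1, rfl, fun n => (F n).2.lip, fun w hw => ?_⟩
  have h1 : ∀ l, WUC (node l).1 w := fun l => by
    obtain ⟨n, rfl⟩ := he l; exact hw (n + 1)
  have h2 : ∀ l, Null (node l).1 w := fun l => hg _ w fun k => h1 (k :: l)
  intro n
  cases n with
  | zero => exact h2 []
  | succ n => exact h2 (e n)

end Crest.Agent.LE
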