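import Crest.Agent.LE.CZ

set_option autoImplicit false
open Filter Topology
open scoped ZeroAtInfty

namespace Crest.Agent.LE

variable {H : Type} [NormedAddCommGroup H]

/-- the cone -/
def Cone (b : C₀(ℕ, H × ℝ)) : Prop := ∀ i, 1 / 100 * ‖(b i).1‖ ≤ (b i).2

/-- reindexing of the vector part -/
noncomputable def rx (π : ℕ → ℕ) (hπ : Function.Injective π) (p : C₀(ℕ, H × ℝ)) :
    C₀(ℕ, H × ℝ) :=
  mk0 (fun i => ((p (π i)).1, (p i).2)) (by
    have h1 : Tendsto π atTop atTop := by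
      rw [← Nat.cofinite_eq_atTop]; exact hπ.tendsto_cofinite
    exact ((c0_tendsto p).comp h1).fst_nhds.prodMk_nhds (c0_tendsto p).snd_nhds)

theorem rx_apply (π : ℕ → ℕ) (hπ : Function.Injective π) (p : C₀(ℕ, H × ℝ)) (i : ℕ) :
    rx π hπ p i = ((p (π i)).1, (p i).2) := rfl

theorem fst_sub_le (p p' : C₀(ℕ, H × ℝ)) (i : ℕ) : ‖(p i).1 - (p' i).1‖ ≤ ‖p - p'‖ :=
  (norm_fst_le (p i - p' i)).trans (c0_sub_le p p' i)

theorem snd_sub_le (p p' : C₀(ℕ, H × ℝ)) (i : ℕ) : |(p i).2 - (p' i).2| ≤ ‖p - p'‖ :=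
  (norm_snd_le (p i - p' i)).trans (c0_sub_le p p' i)

theorem rx_lip (π : ℕ → ℕ) (hπ : Function.Injective π) (p p' : C₀(ℕ, H × ℝ)) :
    ‖rx π hπ p - rx π hπ p'‖ ≤ ‖p - p'‖ :=
  c0_norm_le _ (norm_nonneg _) fun i => by
    rw [ZeroAtInftyContinuousMap.sub_apply, rx_apply, rx_apply, Prod.norm_def]
    exact max_le (fst_sub_le p p' _) (snd_sub_le p p' _)

/-- the data needed for the hotel -/
structure HData (H Z : Type) [NormedAddCommGroup H] [NormedAddCommGroup Z] where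
  δ : C₀(ℕ, H × ℝ) → Z
  q : ℕ → Z → ℝ
  φ : ℕ → C₀(ℕ, H × ℝ) → Z → H
  δlip : ∀ b b', Cone b → Cone b' → ‖δ b - δ b'‖ ≤ 101 / 100 * ‖b - b'‖
  qnn : ∀ i z, 0 ≤ q i z
  qadd : ∀ i z z', q i (z + z') ≤ q i z + q i z'
  qle : ∀ i z, q i z ≤ 101 / 100 * ‖z‖
  qδ : ∀ i b, Cone b → q i (δ b) ≤ ‖(b i).1‖
  qlim : ∀ z, Tendsto (fun i => q i z) atTop (𝓝 0)
  φsub : ∀ i y z z', φ i y (z - z') = φ i y z - φ i y z'
  φle : ∀ i y z, ‖φ i y z‖ ≤ q i z
  φδ : ∀ i b, Cone b → φ i b (δ b) = (b i).1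
  φvar : ∀ i y y' z, 1 / 100 * q i z ≤ (y i).2 → (y i).2 ≤ (y' i).2 →
    ‖φ i y z - φ i y' z‖ ≤ 1 / 50 * ‖y - y'‖

variable {Z : Type} [NormedAddCommGroup Z] (d : HData H Z)

theorem HData.qsub (i : ℕ) (z z' : Z) : |d.q i z - d.q i z'| ≤ 101 / 100 * ‖z - z'‖ := by
  have h1 := d.qadd i z' (z - z')
  have h2 := d.qadd i z (z' - z)
  have h3 := d.qle i (z - z')
  have h4 := d.qle i (z' - z)
  rw [add_sub_cancel] at h1 h2
  rw [norm_sub_rev] at h4
  rw [abs_le]; constructor <;> linarith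

theorem HData.φtwo (i : ℕ) (y y' : C₀(ℕ, H × ℝ)) (z z' : Z) (h : 1 / 100 * d.q i z ≤ (y i).2)
    (h' : 1 / 100 * d.q i z' ≤ (y' i).2) :
    ‖d.φ i y z - d.φ i y' z'‖ ≤ 1 / 50 * ‖y - y'‖ + 101 / 100 * ‖z - z'‖ := by
  rcases le_total (y i).2 (y' i).2 with h1 | h1
  · have e : d.φ i y z - d.φ i y' z' = (d.φ i y z - d.φ i y' z) + d.φ i y' (z - z') := by
      rw [d.φsub]; abel
    rw [e]
    exact (norm_add_le _ _).trans (add_le_add (d.φvar i y y' z h h1)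
      ((d.φle _ _ _).trans (d.qle _ _)))
  · have e : d.φ i y z - d.φ i y' z' = -(d.φ i y' z' - d.φ i y z') + d.φ i y (z - z') := by
      rw [d.φsub]; abel
    rw [e]
    refine (norm_add_le _ _).trans (add_le_add ?_ ((d.φle _ _ _).trans (d.qle _ _)))
    rw [norm_neg, norm_sub_rev y]; exact d.φvar i y' y z' h' h1

variable (π : ℕ → ℕ) (hπ : Function.Injective π) (π' : ℕ → ℕ) (hπ' : Function.Injective π')

/-- solutions of the fixed point problem -/
structure Sol (z0 z1 : Z) (p : C₀(ℕ, H × ℝ)) : Prop where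
  c0 : Cone (rx π hπ p)
  c1 : Cone (rx π' hπ' p)
  ea : ∀ i, (p (π i)).1 = d.φ i (rx π hπ p) z0 + d.φ i (rx π' hπ' p) z1
  et : ∀ i, (p i).2 = 1 / 100 * (d.q i (z0 - d.δ (rx π hπ p)) + d.q i z1 + ‖(p (π i)).1‖ +
    ‖(p (π' i)).1‖)

variable {d π hπ π' hπ'}

theorem q_le_of_cone {p : C₀(ℕ, H × ℝ)} (hp : Cone (rx π hπ p)) (z0 : Z) (i : ℕ) :
    d.q i z0 ≤ d.q i (z0 - d.δ (rx π hπ p)) + ‖(p (π i)).1‖ := by
  have h1 := d.qadd i (z0 - d.δ (rx π hπ p)) (d.δ (rx π hπ p))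
  rw [sub_add_cancel] at h1
  have h2 := d.qδ i _ hp
  rw [rx_apply] at h2
  linarith

theorem Sol.qc {z0 z1 : Z} {p : C₀(ℕ, H × ℝ)} (h : Sol d π hπ π' hπ' z0 z1 p) (i : ℕ) :
    1 / 100 * (d.q i z0 + d.q i z1) ≤ (p i).2 := by
  rw [h.et]
  have := q_le_of_cone (d := d) h.c0 z0 i
  have := norm_nonneg (p (π' i)).1
  linarith

theorem phi_est {z0 z1 z0' z1' : Z} {p p' : C₀(ℕ, H × ℝ)} (i : ℕ)
    (h : 1 / 100 * (d.q i z0 + d.q i z1) ≤ (p i).2)
    (h' : 1 / 100 * (d.q i z0' + d.q i z1') ≤ (p' i).2) :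
    ‖(d.φ i (rx π hπ p) z0 + d.φ i (rx π' hπ' p) z1) -
      (d.φ i (rx π hπ p') z0' + d.φ i (rx π' hπ' p') z1')‖ ≤
      1 / 25 * ‖p - p'‖ + 101 / 100 * (‖z0 - z0'‖ + ‖z1 - z1'‖) := by
  have a0 := d.qnn i z0
  have a1 := d.qnn i z1
  have a2 := d.qnn i z0'
  have a3 := d.qnn i z1'
  have b0 := d.φtwo i (rx π hπ p) (rx π hπ p') z0 z0' (by rw [rx_apply]; linarith)
    (by rw [rx_apply]; linarith)
  have b1 := d.φtwo i (rx π' hπ' p) (rx π' hπ' p') z1 z1' (by rw [rx_apply]; linarith)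
    (by rw [rx_apply]; linarith)
  rw [add_sub_add_comm]
  have := rx_lip π hπ p p'
  have := rx_lip π' hπ' p p'
  exact (norm_add_le _ _).trans (by linarith)

theorem q_est {z0 z0' : Z} {p p' : C₀(ℕ, H × ℝ)} (hp : Cone (rx π hπ p)) (hp' : Cone (rx π hπ p'))
    (i : ℕ) : |d.q i (z0 - d.δ (rx π hπ p)) - d.q i (z0' - d.δ (rx π hπ p'))| ≤
      101 / 100 * (‖z0 - z0'‖ + 101 / 100 * ‖p - p'‖) := by
  refine (d.qsub _ _ _).trans (mul_le_mul_of_nonneg_left ?_ (by norm_num))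
  rw [sub_sub_sub_comm]
  have := d.δlip _ _ hp hp'
  have := rx_lip π hπ p p'
  exact (norm_sub_le _ _).trans (by linarith)

theorem Sol.lip {z0 z1 z0' z1' : Z} {p p' : C₀(ℕ, H × ℝ)} (h : Sol d π hπ π' hπ' z0 z1 p)
    (h' : Sol d π hπ π' hπ' z0' z1' p') {r : ℝ} (h0 : ‖z0 - z0'‖ ≤ r) (h1 : ‖z1 - z1'‖ ≤ r)
    (h2 : ∀ j, j ∉ Set.range π → ‖(p j).1 - (p' j).1‖ ≤ r) : ‖p - p'‖ ≤ 11 / 5 * r := by
  have hr : 0 ≤ r := (norm_nonneg _).trans h0
  have hd := norm_nonneg (p - p')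
  have : ‖p - p'‖ ≤ 1 / 25 * ‖p - p'‖ + 101 / 50 * r := by
    refine c0_norm_le _ (by positivity) fun j => ?_
    rw [ZeroAtInftyContinuousMap.sub_apply, Prod.norm_def]
    refine max_le ?_ ?_
    · rw [Prod.fst_sub]
      by_cases hj : j ∈ Set.range π
      · obtain ⟨i, rfl⟩ := hj
        rw [h.ea, h'.ea]
        exact (phi_est i (h.qc i) (h'.qc i)).trans (by linarith)
      · linarith [h2 j hj]
    · rw [Prod.snd_sub, h.et, h'.et, Real.norm_eq_abs]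
      have a1 := abs_le.1 (q_est (d := d) (z0 := z0) (z0' := z0') h.c0 h'.c0 j)
      have a2 := abs_le.1 (d.qsub j z1 z1')
      have a3 := abs_le.1 ((abs_norm_sub_norm_le _ _).trans (fst_sub_le p p' (π j)))
      have a4 := abs_le.1 ((abs_norm_sub_norm_le _ _).trans (fst_sub_le p p' (π' j)))
      rw [abs_le]; constructor <;> linarith
  linarith

variable (d π hπ π' hπ')

theorem exists_sol [CompleteSpace H] (z0 z1 : Z) (x : C₀(ℕ, H)) :
    ∃ p, Sol d π hπ π' hπ' z0 z1 p ∧ ∀ j, j ∉ Set.range π → (p j).1 = x j := by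
  have hπt : Tendsto π atTop atTop := by
    rw [← Nat.cofinite_eq_atTop]; exact hπ.tendsto_cofinite
  have hπt' : Tendsto π' atTop atTop := by
    rw [← Nat.cofinite_eq_atTop]; exact hπ'.tendsto_cofinite
  let v : C₀(ℕ, H × ℝ) → ℕ → H := fun p i => d.φ i (rx π hπ p) z0 + d.φ i (rx π' hπ' p) z1
  have hv : ∀ p, Tendsto (v p) atTop (𝓝 0) := fun p =>
    squeeze_zero_norm (fun i => (norm_add_le _ _).trans (add_le_add (d.φle _ _ _) (d.φle _ _ _)))
      (by simpa using (d.qlim z0).add (d.qlim z1))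
  let a : C₀(ℕ, H × ℝ) → ℕ → H := fun p => Function.extend π (v p) x
  have ha : ∀ p, Tendsto (a p) atTop (𝓝 0) := fun p => tendsto_extend hπ (hv p) (c0_tendsto x)
  let t : C₀(ℕ, H × ℝ) → ℕ → ℝ := fun p i => 1 / 100 * (d.q i (z0 - d.δ (rx π hπ p)) + d.q i z1 +
    max ‖(p (π i)).1‖ ‖a p (π i)‖ + max ‖(p (π' i)).1‖ ‖a p (π' i)‖)
  have ht : ∀ p, Tendsto (t p) atTop (𝓝 0) := fun p => by
    have := ((((d.qlim (z0 - d.δ (rx π hπ p))).add (d.qlim z1)).add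
      (((c0_tendsto p).comp hπt).fst_nhds.norm.max ((ha p).comp hπt).norm)).add
      (((c0_tendsto p).comp hπt').fst_nhds.norm.max ((ha p).comp hπt').norm)).const_mul (1 / 100)
    simp only [Prod.fst_zero, norm_zero, max_self, add_zero, mul_zero] at this
    exact this
  let T : C₀(ℕ, H × ℝ) → C₀(ℕ, H × ℝ) := fun p => mk0 (fun i => (a p i, t p i))
    ((ha p).prodMk_nhds (ht p))
  have hT : ∀ p i, T p i = (a p i, t p i) := fun p i => rfl
  let D : Set C₀(ℕ, H × ℝ) := {p | Cone (rx π hπ p) ∧ Cone (rx π' hπ' p) ∧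
    ∀ i, 1 / 100 * (d.q i z0 + d.q i z1) ≤ (p i).2}
  have hDc : IsClosed D := by
    simp only [D, Cone, rx_apply, Set.setOf_and, Set.setOf_forall]
    refine (isClosed_iInter fun i => isClosed_le ?_ ?_).inter
      ((isClosed_iInter fun i => isClosed_le ?_ ?_).inter
        (isClosed_iInter fun i => isClosed_le ?_ ?_))
    all_goals first
      | exact (c0_cont _).snd
      | exact (c0_cont _).fst.norm.const_mul _
      | exact continuous_const
  have hmaps : Set.MapsTo T D D := by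
    intro p hp
    refine ⟨fun i => ?_, fun i => ?_, fun i => ?_⟩
    all_goals
      have a1 := d.qnn i (z0 - d.δ (rx π hπ p))
      have a2 := d.qnn i z1
      have a3 := le_max_right ‖(p (π i)).1‖ ‖a p (π i)‖
      have a4 := le_max_right ‖(p (π' i)).1‖ ‖a p (π' i)‖
      have a5 := le_max_left ‖(p (π i)).1‖ ‖a p (π i)‖
      have a6 := norm_nonneg (a p (π i))
      have a7 := norm_nonneg (a p (π' i))
      have a8 := q_le_of_cone (d := d) hp.1 z0 i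
      simp only [rx_apply, hT, t]
      linarith
  have hcon : ∀ p ∈ D, ∀ p' ∈ D, ‖T p - T p'‖ ≤ 1 / 2 * ‖p - p'‖ := by
    intro p hp p' hp'
    have hd := norm_nonneg (p - p')
    have haa : ∀ j, ‖a p j - a p' j‖ ≤ 1 / 25 * ‖p - p'‖ := fun j => by
      by_cases hj : ∃ i, π i = j
      · obtain ⟨i, rfl⟩ := hj
        simp only [a, hπ.extend_apply]
        simpa using phi_est (π := π) (hπ := hπ) (π' := π') (hπ' := hπ') i (hp.2.2 i) (hp'.2.2 i)
      · simp only [a, Function.extend_apply' _ _ _ hj]; simp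
    have hmx : ∀ j, |max ‖(p j).1‖ ‖a p j‖ - max ‖(p' j).1‖ ‖a p' j‖| ≤ ‖p - p'‖ := fun j =>
      (abs_max_sub_max_le_max _ _ _ _).trans (max_le
        ((abs_norm_sub_norm_le _ _).trans (fst_sub_le p p' j))
        ((abs_norm_sub_norm_le _ _).trans ((haa j).trans (by linarith))))
    refine c0_norm_le _ (by positivity) fun j => ?_
    rw [ZeroAtInftyContinuousMap.sub_apply, Prod.norm_def, hT, hT]
    refine max_le ((haa j).trans (by linarith)) ?_
    simp only [Prod.snd_sub, t, Real.norm_eq_abs]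
    have a1 := abs_le.1 (q_est (d := d) (z0 := z0) (z0' := z0) hp.1 hp'.1 j)
    have a3 := abs_le.1 (hmx (π j))
    have a4 := abs_le.1 (hmx (π' j))
    rw [sub_self, norm_zero] at a1
    rw [abs_le]; constructor <;> linarith
  have hc : ContractingWith (1 / 2) (hmaps.restrict T D D) :=
    ⟨by norm_num, LipschitzWith.of_dist_le_mul fun p p' => by
      simp only [Subtype.dist_eq, dist_eq_norm]
      simpa using hcon p.1 p.2 p'.1 p'.2⟩
  let p0 : C₀(ℕ, H × ℝ) := mk0 (fun i => (0, 1 / 100 * (d.q i z0 + d.q i z1)))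
    ((tendsto_const_nhds (x := (0 : H))).prodMk_nhds
          (by simpa only [add_zero, mul_zero] using
            ((d.qlim z0).add (d.qlim z1)).const_mul (1 / 100)))
  have hp0 : p0 ∈ D := by
    refine ⟨fun i => ?_, fun i => ?_, fun i => le_rfl⟩
    all_goals
      have := d.qnn i z0
      have := d.qnn i z1
      simp only [rx_apply, p0, mk0_apply, norm_zero]
      linarith
  obtain ⟨p, hp, hfix, -⟩ := hc.exists_fixedPoint' hDc.isComplete hmaps hp0 (edist_ne_top _ _)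
  have h1 : ∀ j, (p j).1 = a p j := fun j => (congrArg (fun y => (y j).1) hfix.eq).symm
  have h2 : ∀ j, (p j).2 = t p j := fun j => (congrArg (fun y => (y j).2) hfix.eq).symm
  refine ⟨p, ⟨hp.1, hp.2.1, fun i => ?_, fun i => ?_⟩, fun j hj => ?_⟩
  · rw [h1]; simp only [a, hπ.extend_apply, v]
  · rw [h2]; simp only [t, ← h1, max_self]
  · rw [h1]; simp only [a, Function.extend_apply' _ _ _ hj]

variable {d π hπ π' hπ'}

theorem Sol.swap {z0 z1 : Z} {p : C₀(ℕ, H × ℝ)} (h : Sol d π hπ π' hπ' z0 z1 p) :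
    Sol d π' hπ' π hπ (z1 + d.δ (rx π' hπ' p)) (z0 - d.δ (rx π hπ p)) p := by
  refine ⟨h.c1, h.c0, fun i => ?_, fun i => ?_⟩
  · have e1 := d.φsub i (rx π' hπ' p) (z1 + d.δ (rx π' hπ' p)) (d.δ (rx π' hπ' p))
    rw [add_sub_cancel_right, d.φδ _ _ h.c1, rx_apply] at e1
    rw [d.φsub, d.φδ _ _ h.c0, rx_apply, h.ea, e1]
    simp only; abel
  · rw [h.et, add_sub_cancel_right]; ring

/-- the Hilbert hotel -/
theorem hotel [CompleteSpace H] (d : HData H Z) :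
    ∃ Ψ : (Z × Z) × C₀(ℕ, H) → Z × Z, Function.Surjective Ψ ∧
      ∀ s t, ‖s - t‖ ≤ 33 / 10 * ‖Ψ s - Ψ t‖ ∧ ‖Ψ s - Ψ t‖ ≤ 33 / 10 * ‖s - t‖ := by
  let σ : ℕ → ℕ := fun i => 2 * i + 1
  have hσ : Function.Injective σ := fun a b h => by simp only [σ] at h; omega
  have hid : Function.Injective (id : ℕ → ℕ) := Function.injective_id
  have hdiv : Tendsto (fun j : ℕ => j / 2) atTop atTop := Nat.tendsto_div_const_atTop (by norm_num)
  let fill : C₀(ℕ, H) → C₀(ℕ, H) := fun x => mk0 (fun j => x (j / 2)) ((c0_tendsto x).comp hdiv)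
  choose P hP hPx using fun s : (Z × Z) × C₀(ℕ, H) =>
    exists_sol d σ hσ id hid s.1.2 s.1.1 (fill s.2)
  let Ψ : (Z × Z) × C₀(ℕ, H) → Z × Z := fun s =>
    (s.1.1 + d.δ (rx id hid (P s)), s.1.2 - d.δ (rx σ hσ (P s)))
  have hev : ∀ n, 2 * n ∉ Set.range σ := by rintro n ⟨i, h⟩; simp only [σ] at h; omega
  have hPe : ∀ s n, (P s (2 * n)).1 = s.2 n := fun s n => by
    rw [hPx s _ (hev n)]; simp [fill]
  refine ⟨Ψ, fun z => ?_, fun s t => ⟨?_, ?_⟩⟩
  · obtain ⟨p, hp, -⟩ := exists_sol d id hid σ hσ z.1 z.2 0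
    have h2 : Tendsto (fun n : ℕ => 2 * n) atTop atTop :=
      tendsto_atTop_mono (fun n => by simp only [id]; omega) tendsto_id
    let x : C₀(ℕ, H) := mk0 (fun n => (p (2 * n)).1) ((c0_tendsto p).comp h2).fst_nhds
    let s : (Z × Z) × C₀(ℕ, H) := ((z.1 - d.δ (rx id hid p), z.2 + d.δ (rx σ hσ p)), x)
    have : P s = p := by
      have := (hP s).lip hp.swap (r := 0) (by simp [s]) (by simp [s]) fun j hj => by
        obtain ⟨n, rfl⟩ : ∃ n, j = 2 * n := ⟨j / 2, by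
          by_contra hc; exact hj ⟨j / 2, by simp only [σ]; omega⟩⟩
        rw [hPe]; simp [s, x]
      rw [mul_zero, norm_le_zero_iff, sub_eq_zero] at this
      exact this
    refine ⟨s, ?_⟩
    simp only [Ψ, this, s]; simp
  · have hr := norm_nonneg (Ψ s - Ψ t)
    have h1 : ‖(Ψ s).1 - (Ψ t).1‖ ≤ ‖Ψ s - Ψ t‖ := norm_fst_le (Ψ s - Ψ t)
    have h2 : ‖(Ψ s).2 - (Ψ t).2‖ ≤ ‖Ψ s - Ψ t‖ := norm_snd_le (Ψ s - Ψ t)
    have h3 := (hP s).swap.lip (hP t).swap h1 h2 fun j hj => absurd ⟨j, rfl⟩ hj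
    have h4 := (d.δlip _ _ (hP s).c0 (hP t).c0).trans
      (mul_le_mul_of_nonneg_left (rx_lip _ _ _ _) (by norm_num))
    have h5 := (d.δlip _ _ (hP s).c1 (hP t).c1).trans
      (mul_le_mul_of_nonneg_left (rx_lip _ _ _ _) (by norm_num))
    rw [Prod.norm_def, Prod.norm_def]
    refine max_le (max_le ?_ ?_) (c0_norm_le _ (by positivity) fun n => ?_)
    · have e : (s - t).1.1 = ((Ψ s).1 - (Ψ t).1) -
          (d.δ (rx id hid (P s)) - d.δ (rx id hid (P t))) := by simp [Ψ]; abel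
      rw [e]; exact (norm_sub_le _ _).trans (by linarith)
    · have e : (s - t).1.2 = ((Ψ s).2 - (Ψ t).2) +
          (d.δ (rx σ hσ (P s)) - d.δ (rx σ hσ (P t))) := by simp [Ψ]; abel
      rw [e]; exact (norm_add_le _ _).trans (by linarith)
    · rw [Prod.snd_sub, ZeroAtInftyContinuousMap.sub_apply, ← hPe, ← hPe]
      exact (fst_sub_le _ _ _).trans (by linarith)
  · have hr := norm_nonneg (s - t)
    have h0 : ‖s.1 - t.1‖ ≤ ‖s - t‖ := norm_fst_le (s - t)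
    have h1 : ‖s.1.1 - t.1.1‖ ≤ ‖s - t‖ := (norm_fst_le (s.1 - t.1)).trans h0
    have h2 : ‖s.1.2 - t.1.2‖ ≤ ‖s - t‖ := (norm_snd_le (s.1 - t.1)).trans h0
    have h3 := (hP s).lip (hP t) h2 h1 fun j hj => by
      rw [hPx s j hj, hPx t j hj]
      exact (c0_sub_le s.2 t.2 _).trans (norm_snd_le (s - t))
    have h4 := (d.δlip _ _ (hP s).c0 (hP t).c0).trans
      (mul_le_mul_of_nonneg_left (rx_lip _ _ _ _) (by norm_num))
    have h5 := (d.δlip _ _ (hP s).c1 (hP t).c1).trans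
      (mul_le_mul_of_nonneg_left (rx_lip _ _ _ _) (by norm_num))
    rw [Prod.norm_def]
    refine max_le ?_ ?_
    · have e : (Ψ s - Ψ t).1 = (s.1.1 - t.1.1) +
          (d.δ (rx id hid (P s)) - d.δ (rx id hid (P t))) := by simp [Ψ]; abel
      rw [e]; exact (norm_add_le _ _).trans (by linarith)
    · have e : (Ψ s - Ψ t).2 = (s.1.2 - t.1.2) -
          (d.δ (rx σ hσ (P s)) - d.δ (rx σ hσ (P t))) := by simp [Ψ]; abel
      rw [e]; exact (norm_sub_le _ _).trans (by linarith)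

end Crest.Agent.LE
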