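import Crest.Agent.LE.Basic

set_option autoImplicit false
open Filter Topology Finset

namespace Crest.Agent.LE

/-- quantitative form of `c₀`-freeness -/
def C0Free (Z : Type) [NormedAddCommGroup Z] [NormedSpace ℝ Z] : Prop :=
  ∀ z : ℕ → Z, (∃ B : ℝ, ∀ (s : Finset ℕ) (c : ℕ → ℝ), (∀ i, |c i| ≤ 1) →
    ‖∑ i ∈ s, c i • z i‖ ≤ B) → Tendsto z atTop (𝓝 0)

/-- type synonym carrying a seminorm -/
def Wr {E : Type} [AddCommGroup E] [Module ℝ E] (_p : Seminorm ℝ E) : Type := E

section Wr
variable {E : Type} [AddCommGroup E] [Module ℝ E] (p : Seminorm ℝ E)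

instance : AddCommGroup (Wr p) := inferInstanceAs (AddCommGroup E)
instance : Module ℝ (Wr p) := inferInstanceAs (Module ℝ E)
noncomputable instance : SeminormedAddCommGroup (Wr p) :=
  AddGroupSeminorm.toSeminormedAddCommGroup (E := Wr p) p.toAddGroupSeminorm
noncomputable instance : NormedSpace ℝ (Wr p) where
  norm_smul_le c x := (map_smul_eq_mul p c x).le

/-- the canonical linear map into the completion -/
noncomputable def toZ : E →ₗ[ℝ] UniformSpace.Completion (Wr p) :=
  (UniformSpace.Completion.toComplₗᵢ (𝕜 := ℝ) (E := Wr p)).toLinearMap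

theorem norm_toZ (x : E) : ‖toZ p x‖ = p x :=
  (UniformSpace.Completion.toComplₗᵢ (𝕜 := ℝ) (E := Wr p)).norm_map x

theorem denseRange_toZ : DenseRange (toZ p) := UniformSpace.Completion.denseRange_coe (α := Wr p)

theorem exists_ext {H : Type} [NormedAddCommGroup H] [NormedSpace ℝ H] [CompleteSpace H]
    (T : E →ₗ[ℝ] H) (L : ℝ) (h : ∀ x, ‖T x‖ ≤ L * p x) :
    ∃ T' : UniformSpace.Completion (Wr p) →L[ℝ] H, (∀ z, ‖T' z‖ ≤ L * ‖z‖) ∧
      ∀ x, T' (toZ p x) = T x := by
  let T1 : Wr p →L[ℝ] H := LinearMap.mkContinuous (E := Wr p) T L h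
  have h1 : ∀ x, T1.fromCompletion (toZ p x) = T x := fun x =>
    ContinuousLinearMap.fromCompletion_apply_coe T1 x
  refine ⟨T1.fromCompletion, fun z => ?_, h1⟩
  refine (denseRange_toZ p).induction_on (p := fun z => ‖T1.fromCompletion z‖ ≤ L * ‖z‖) z
    (isClosed_le (by fun_prop) (by fun_prop)) fun x => ?_
  rw [h1, norm_toZ]; exact h x

end Wr

/-- greedy choice of signs for finitely many seminorms -/
theorem seminorm_signs {E : Type} [AddCommGroup E] [Module ℝ E] (p : ℕ → Seminorm ℝ E)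
    (θ : ℕ → ℝ) (hθ : ∀ n, 0 ≤ θ n) (w : ℕ → E) (m : ℕ) (i : ℕ → ℕ) (s : Finset ℕ) :
    ∃ c : ℕ → ℝ, (∀ j, |c j| ≤ 1) ∧ ∑ n ∈ (range m).filter (fun n => i n ∈ s), θ n * p n (w (i n))
      ≤ ∑ n ∈ (range m).filter (fun n => i n ∈ s), θ n * p n (∑ j ∈ s, c j • w j) := by
  classical
  induction s using Finset.induction_on with
  | empty => exact ⟨fun _ => 0, by simp, by simp⟩
  | insert a s ha ih =>
    obtain ⟨c, hc, h⟩ := ih
    set u := ∑ j ∈ s, c j • w j with hu
    have hsplit : ∀ g : ℕ → ℝ, ∑ n ∈ (range m).filter (fun n => i n ∈ insert a s), g n =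
        ∑ n ∈ (range m).filter (fun n => i n ∈ s), g n +
          ∑ n ∈ (range m).filter (fun n => i n = a), g n := by
      intro g
      rw [← Finset.sum_union]
      · congr 1; ext n; simp only [mem_filter, mem_insert, mem_union]; tauto
      · rw [Finset.disjoint_filter]; intro n _ h1 h2; exact ha (h2 ▸ h1)
    have hsum : ∀ e : ℝ, ∑ j ∈ insert a s, Function.update c a e j • w j = u + e • w a := by
      intro e
      rw [Finset.sum_insert ha, Function.update_self, add_comm, hu]
      congr 1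
      exact Finset.sum_congr rfl fun j hj => by
        rw [Function.update_of_ne (by rintro rfl; exact ha hj)]
    have hupd : ∀ e : ℝ, |e| ≤ 1 → ∀ j, |Function.update c a e j| ≤ 1 := fun e he j => by
      by_cases hj : j = a
      · subst hj; simpa using he
      · rw [Function.update_of_ne hj]; exact hc j
    have k1 : ∀ n, 2 * p n u ≤ p n (u + (1 : ℝ) • w a) + p n (u + (-1 : ℝ) • w a) := fun n => by
      have e : (2 : ℝ) • u = (u + (1 : ℝ) • w a) + (u + (-1 : ℝ) • w a) := by module
      have := map_add_le_add (p n) (u + (1 : ℝ) • w a) (u + (-1 : ℝ) • w a)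
      rw [← e, map_smul_eq_mul] at this
      simpa using this
    have k2 : ∀ n, 2 * p n (w a) ≤ p n (u + (1 : ℝ) • w a) + p n (u + (-1 : ℝ) • w a) := fun n => by
      have e : (2 : ℝ) • w a = (u + (1 : ℝ) • w a) - (u + (-1 : ℝ) • w a) := by module
      have := map_sub_le_add (p n) (u + (1 : ℝ) • w a) (u + (-1 : ℝ) • w a)
      rw [← e, map_smul_eq_mul] at this
      simpa using this
    have key : 2 * ∑ n ∈ (range m).filter (fun n => i n ∈ insert a s), θ n * p n (w (i n)) ≤
        ∑ n ∈ (range m).filter (fun n => i n ∈ insert a s), θ n * p n (u + (1 : ℝ) • w a) +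
        ∑ n ∈ (range m).filter (fun n => i n ∈ insert a s), θ n * p n (u + (-1 : ℝ) • w a) := by
      rw [← Finset.sum_add_distrib, hsplit, hsplit]
      have a1 : 2 * ∑ n ∈ (range m).filter (fun n => i n ∈ s), θ n * p n u ≤
          ∑ n ∈ (range m).filter (fun n => i n ∈ s),
            (θ n * p n (u + (1 : ℝ) • w a) + θ n * p n (u + (-1 : ℝ) • w a)) := by
        rw [Finset.mul_sum]
        exact Finset.sum_le_sum fun n _ => by nlinarith [k1 n, hθ n]
      have a2 : 2 * ∑ n ∈ (range m).filter (fun n => i n = a), θ n * p n (w (i n)) ≤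
          ∑ n ∈ (range m).filter (fun n => i n = a),
            (θ n * p n (u + (1 : ℝ) • w a) + θ n * p n (u + (-1 : ℝ) • w a)) := by
        rw [Finset.mul_sum]
        exact Finset.sum_le_sum fun n hn => by
          rw [(mem_filter.1 hn).2]; nlinarith [k2 n, hθ n]
      linarith
    rcases le_total (∑ n ∈ (range m).filter (fun n => i n ∈ insert a s),
        θ n * p n (u + (1 : ℝ) • w a)) (∑ n ∈ (range m).filter (fun n => i n ∈ insert a s),
        θ n * p n (u + (-1 : ℝ) • w a)) with h1 | h1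
    · exact ⟨_, hupd (-1) (by simp), by rw [hsum]; linarith⟩
    · exact ⟨_, hupd 1 (by simp), by rw [hsum]; linarith⟩

variable {X : Type} [MetricSpace X]

theorem pr_ctr_le (o : X) (μ : X →₀ ℝ) {f : X → ℝ} (hf : ∀ x y, |f x - f y| ≤ dist x y) :
    |pr μ fun b => f b - f o| ≤ ∑ b ∈ μ.support, |μ b| * dist b o := by
  rw [pr_eq_sum]
  refine (Finset.abs_sum_le_sum_abs _ _).trans (Finset.sum_le_sum fun b _ => ?_)
  rw [smul_eq_mul, abs_mul]
  exact mul_le_mul_of_nonneg_left (hf _ _) (abs_nonneg _)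

/-- seminorm of a class -/
noncomputable def csn (o : X) (C : Set (X → ℝ)) (hC : ∀ f ∈ C, ∀ x y, |f x - f y| ≤ dist x y) :
    Seminorm ℝ (X →₀ ℝ) :=
  Seminorm.of (fun μ => ⨆ f : C, |pr μ fun b => f.1 b - f.1 o|)
    (fun μ ν => by
      have hb : ∀ μ : X →₀ ℝ, BddAbove (Set.range fun f : C => |pr μ fun b => f.1 b - f.1 o|) :=
        fun μ => ⟨_, by rintro _ ⟨f, rfl⟩; exact pr_ctr_le o μ (hC _ f.2)⟩
      refine Real.iSup_le (fun f => ?_) (add_nonneg (Real.iSup_nonneg fun _ => abs_nonneg _)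
        (Real.iSup_nonneg fun _ => abs_nonneg _))
      rw [pr_add]
      exact (abs_add_le _ _).trans (add_le_add (le_ciSup (hb μ) f) (le_ciSup (hb ν) f)))
    (fun a μ => by
      rw [Real.mul_iSup_of_nonneg (norm_nonneg a)]
      congr 1; funext f
      rw [pr_smul, smul_eq_mul, abs_mul, Real.norm_eq_abs])

theorem le_csn (o : X) {C : Set (X → ℝ)} (hC : ∀ f ∈ C, ∀ x y, |f x - f y| ≤ dist x y)
    (μ : X →₀ ℝ) {f : X → ℝ} (hf : f ∈ C) : |pr μ fun b => f b - f o| ≤ csn o C hC μ :=
  le_ciSup (f := fun f : C => |pr μ fun b => f.1 b - f.1 o|)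
    ⟨_, by rintro _ ⟨f, rfl⟩; exact pr_ctr_le o μ (hC _ f.2)⟩ ⟨f, hf⟩

theorem csn_le (o : X) {C : Set (X → ℝ)} (hC : ∀ f ∈ C, ∀ x y, |f x - f y| ≤ dist x y)
    (μ : X →₀ ℝ) {B : ℝ} (hB : 0 ≤ B) (h : ∀ f ∈ C, |pr μ fun b => f b - f o| ≤ B) :
    csn o C hC μ ≤ B :=
  Real.iSup_le (fun f => h f.1 f.2) hB

theorem exists_space [TopologicalSpace.SeparableSpace X] (o : X) (F : ℕ → Set (X → ℝ))
    (hlip : ∀ n, ∀ f ∈ F n, ∀ x y, |f x - f y| ≤ dist x y)
    (hnull : ∀ w : ℕ → X →₀ ℝ, (∀ n, WUC (F n) w) → ∀ n, Null (F n) w) {η : ℝ} (hη : 0 < η)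
    (H : Type) [NormedAddCommGroup H] [InnerProductSpace ℝ H] [CompleteSpace H] :
    ∃ (Z : Type) (_ : NormedAddCommGroup Z) (_ : NormedSpace ℝ Z), CompleteSpace Z ∧
      TopologicalSpace.SeparableSpace Z ∧ C0Free Z ∧ ∃ δ : X → Z,
      (∀ x y, ‖δ x - δ y‖ ≤ (1 + η) * dist x y) ∧
      Dense (Submodule.span ℝ (Set.range δ) : Set Z) ∧
      ∀ (A : X → H) (L : ℝ), 0 < L → (∀ (v : H) (B : ℝ),
        (∀ h : H, (fun b => inner ℝ h (A b) / L) ∈ F 0 → |inner ℝ h v| ≤ B) → ‖v‖ ≤ B) →
        ∃ T : Z →L[ℝ] H, (∀ z, ‖T z‖ ≤ L * ‖z‖) ∧ ∀ b, T (δ b) = A b - A o := by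
  classical
  let pn : ℕ → Seminorm ℝ (X →₀ ℝ) := fun n => csn o (F n) (hlip n)
  let θ : ℕ → ℝ := fun n => Nat.casesOn n 1 fun k => η / 2 / 2 ^ k
  have hθ : ∀ n, 0 < θ n := fun n => by cases n <;> simp [θ]; positivity
  have hθs : HasSum θ (1 + η) := by
    have := (hasSum_nat_add_iff (f := θ) 1).1 (hasSum_geometric_two' η)
    simpa [θ, add_comm] using this
  have hs : ∀ μ, Summable fun n => θ n * pn n μ := fun μ =>
    Summable.of_nonneg_of_le (fun n => mul_nonneg (hθ n).le (apply_nonneg _ _))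
      (fun n => mul_le_mul_of_nonneg_left (csn_le o (hlip n) μ
        (Finset.sum_nonneg fun b _ => by positivity) fun f hf => pr_ctr_le o μ (hlip n f hf))
        (hθ n).le) (hθs.summable.mul_right _)
  let p : Seminorm ℝ (X →₀ ℝ) := Seminorm.of (fun μ => ∑' n, θ n * pn n μ)
    (fun μ ν => by
      rw [← (hs μ).tsum_add (hs ν)]
      exact (hs _).tsum_le_tsum (fun n => by
        rw [← mul_add]; exact mul_le_mul_of_nonneg_left (map_add_le_add _ _ _) (hθ n).le)
        ((hs μ).add (hs ν)))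
    (fun a μ => by
      rw [← tsum_mul_left]; congr 1; funext n; rw [map_smul_eq_mul]; ring)
  have hp : ∀ μ, p μ = ∑' n, θ n * pn n μ := fun μ => rfl
  have hpn : ∀ n μ, θ n * pn n μ ≤ p μ := fun n μ =>
    (hs μ).le_tsum n fun m _ => mul_nonneg (hθ m).le (apply_nonneg _ _)
  let δ : X → UniformSpace.Completion (Wr p) := fun b => toZ p (Finsupp.single b 1)
  have hδ : ∀ x y, ‖δ x - δ y‖ ≤ (1 + η) * dist x y := fun x y => by
    simp only [δ]
    rw [← map_sub, norm_toZ, hp, ← (hθs.mul_right (dist x y)).tsum_eq]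
    refine (hs _).tsum_le_tsum (fun n => mul_le_mul_of_nonneg_left
      (csn_le o (hlip n) _ dist_nonneg fun f hf => ?_) (hθ n).le) (hθs.mul_right _).summable
    rw [pr_sub, pr_single, pr_single]; simpa using hlip n f hf x y
  have hden : Dense (Submodule.span ℝ (Set.range δ) : Set (UniformSpace.Completion (Wr p))) := by
    refine (denseRange_toZ p).mono ?_
    rintro _ ⟨μ, rfl⟩
    induction μ using Finsupp.induction_linear with
    | zero => simp
    | add f g hf hg => rw [map_add]; exact Submodule.add_mem _ hf hg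
    | single a r =>
      have : Finsupp.single a r = r • Finsupp.single a (1 : ℝ) := by simp
      rw [this, map_smul]
      exact Submodule.smul_mem _ _ (Submodule.subset_span ⟨a, rfl⟩)
  refine ⟨UniformSpace.Completion (Wr p), inferInstance, inferInstance, inferInstance, ?_, ?_, δ,
    hδ, hden, fun A L hL hA => ?_⟩
  · have hc : Continuous δ :=
      (LipschitzWith.of_dist_le_mul (K := ⟨1 + η, by positivity⟩) fun x y => by
        rw [dist_eq_norm]; exact hδ x y).continuous
    rw [← TopologicalSpace.isSeparable_univ_iff, ← hden.closure_eq]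
    exact (TopologicalSpace.isSeparable_range hc).span.closure
  · rintro z ⟨B, hB⟩
    have hap : ∀ i : ℕ, ∃ μ, ‖z i - toZ p μ‖ ≤ (1 / 2) ^ i := fun i => by
      obtain ⟨μ, hμ⟩ := (denseRange_toZ p).exists_dist_lt (z i)
        (show (0 : ℝ) < (1 / 2) ^ i by positivity)
      exact ⟨μ, by rw [← dist_eq_norm]; exact hμ.le⟩
    choose w hw using hap
    have hwB : ∀ (s : Finset ℕ) (c : ℕ → ℝ), (∀ i, |c i| ≤ 1) → p (∑ i ∈ s, c i • w i) ≤ B + 2 := by
      intro s c hc
      rw [← norm_toZ, map_sum]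
      have e : ∑ i ∈ s, toZ p (c i • w i) =
          ∑ i ∈ s, c i • z i - ∑ i ∈ s, c i • (z i - toZ p (w i)) := by
        rw [← Finset.sum_sub_distrib]
        exact Finset.sum_congr rfl fun i _ => by rw [map_smul, smul_sub]; abel
      rw [e]
      refine (norm_sub_le _ _).trans (add_le_add (hB s c hc) ((norm_sum_le _ _).trans ?_))
      have a1 : ∑ i ∈ s, ‖c i • (z i - toZ p (w i))‖ ≤ ∑ i ∈ s, ((1 : ℝ) / 2) ^ i :=
        Finset.sum_le_sum fun i _ => by
          rw [norm_smul]
          exact (mul_le_of_le_one_left (norm_nonneg _) (hc i)).trans (hw i)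
      refine a1.trans ?_
      exact (summable_geometric_two.sum_le_tsum s fun i _ => by positivity).trans
        tsum_geometric_two.le
    let w' : ℕ → X →₀ ℝ := fun i => w i - Finsupp.single o (pr (w i) fun _ => (1 : ℝ))
    have hw' : ∀ i (f : X → ℝ), pr (w' i) f = pr (w i) fun b => f b - f o := fun i f => by
      simp only [w']
      rw [pr_sub, pr_single, pr_fsub, smul_eq_mul, mul_comm, ← pr_fmul]; simp
    have hW : ∀ n, WUC (F n) w' := fun n => ⟨(B + 2) / θ n, fun f hf s => by
      rw [le_div_iff₀ (hθ n), mul_comm]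
      set c : ℕ → ℝ := fun i => SignType.sign (pr (w' i) f) with hc
      have hc1 : ∀ i, |c i| ≤ 1 := fun i => by
        simp only [hc]; rcases SignType.sign (pr (w' i) f) with _ | _ | _ <;> simp
      refine le_trans ?_ ((hpn n _).trans (hwB s c hc1))
      refine mul_le_mul_of_nonneg_left (le_trans ?_ (le_csn o (hlip n) _ hf)) (hθ n).le
      refine le_trans (le_of_eq ?_) (le_abs_self _)
      rw [pr_finsum]
      exact Finset.sum_congr rfl fun i _ => by
        rw [pr_smul, ← hw', smul_eq_mul, hc, sign_mul_self]⟩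
    have hN : ∀ n, Tendsto (fun i => pn n (w i)) atTop (𝓝 0) := fun n => by
      refine tendsto_order.2 ⟨fun a ha => Eventually.of_forall fun i =>
        ha.trans_le (apply_nonneg _ _), fun a ha => ?_⟩
      filter_upwards [hnull w' hW n (a / 2) (by positivity)] with i hi
      refine lt_of_le_of_lt (csn_le o (hlip n) _ (show 0 ≤ a / 2 by positivity) fun f hf => ?_)
        (by linarith)
      rw [← hw']; exact hi f hf
    have hbd : ∀ n, BddAbove (Set.range fun i => pn n (w i)) := fun n => (hN n).bddAbove_range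
    let g : ℕ → ℝ := fun n => ⨆ i, pn n (w i)
    have hg : ∀ n, ∃ i, g n ≤ 2 * pn n (w i) := fun n => by
      by_contra hc
      push Not at hc
      have : g n ≤ g n / 2 := ciSup_le fun i => by linarith [hc i]
      linarith [hc 0, apply_nonneg (pn n) (w 0)]
    choose ix hix using hg
    have hgs : Summable fun n => θ n * g n := by
      refine summable_of_sum_range_le (c := 2 * (B + 2)) (fun n => mul_nonneg (hθ n).le
        (Real.iSup_nonneg fun i => apply_nonneg _ _)) fun m => ?_
      obtain ⟨c, hc, h⟩ := seminorm_signs pn θ (fun n => (hθ n).le) w m ix ((range m).image ix)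
      rw [Finset.filter_true_of_mem fun n hn => Finset.mem_image_of_mem ix hn] at h
      have a1 := ((hs _).sum_le_tsum (range m) fun n _ =>
        mul_nonneg (hθ n).le (apply_nonneg _ _)).trans (hwB ((range m).image ix) c hc)
      have a2 : ∑ n ∈ range m, θ n * g n ≤ 2 * ∑ n ∈ range m, θ n * pn n (w (ix n)) := by
        rw [Finset.mul_sum]
        exact Finset.sum_le_sum fun n _ => by nlinarith [hix n, hθ n]
      linarith
    have hp0 : Tendsto (fun i => p (w i)) atTop (𝓝 0) := by
      have := tendsto_tsum_of_dominated_convergence (f := fun i n => θ n * pn n (w i))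
        (g := fun _ => 0) hgs (fun n => by simpa using (hN n).const_mul (θ n))
        (Eventually.of_forall fun i n => by
          rw [Real.norm_of_nonneg (mul_nonneg (hθ n).le (apply_nonneg _ _))]
          exact mul_le_mul_of_nonneg_left (le_ciSup (hbd n) i) (hθ n).le)
      simpa only [hp, tsum_zero] using this
    rw [tendsto_zero_iff_norm_tendsto_zero]
    refine squeeze_zero (fun i => norm_nonneg _) (g := fun i => (1 / 2) ^ i + p (w i))
      (fun i => ?_) (by simpa using (tendsto_pow_atTop_nhds_zero_of_lt_one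
        (show (0 : ℝ) ≤ 1 / 2 by norm_num) (by norm_num)).add hp0)
    have := norm_add_le (z i - toZ p (w i)) (toZ p (w i))
    rw [sub_add_cancel, norm_toZ] at this
    linarith [hw i]
  · obtain ⟨T, h1, h2⟩ := exists_ext p (Finsupp.linearCombination ℝ fun b => A b - A o) L
      fun μ => hA _ _ fun h hh => by
        have a1 := le_csn o (hlip 0) μ hh
        have a2 := hpn 0 μ
        change 1 * csn o (F 0) (hlip 0) μ ≤ _ at a2
        have a3 : (fun b => inner ℝ h (A b) / L - inner ℝ h (A o) / L) =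
            fun b => inner ℝ h (A b - A o) / L := by
          funext b; rw [inner_sub_right, sub_div]
        rw [a3, pr_fdiv, pr_inner, abs_div, abs_of_pos hL, div_le_iff₀ hL] at a1
        change |inner ℝ h (pr μ _)| ≤ _
        nlinarith
    exact ⟨T, h1, fun b => by simp only [δ]; rw [h2]; simp⟩

end Crest.Agent.LE
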