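import Crest.Agent.LE.Tame0
import Crest.Agent.LE.Good
import Crest.Agent.LE.Space

set_option autoImplicit false
open Filter Topology
open scoped ZeroAtInfty

namespace Crest.Agent.LE

theorem C0Free.prod {Z : Type} [NormedAddCommGroup Z] [NormedSpace ℝ Z] (h : C0Free Z) :
    C0Free (Z × Z) := by
  rintro z ⟨B, hB⟩
  have h1 := h (fun i => (z i).1) ⟨B, fun s c hc => le_trans (by
    simpa [Prod.fst_sum] using norm_fst_le (∑ i ∈ s, c i • z i)) (hB s c hc)⟩
  have h2 := h (fun i => (z i).2) ⟨B, fun s c hc => le_trans (by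
    simpa [Prod.snd_sum] using norm_snd_le (∑ i ∈ s, c i • z i)) (hB s c hc)⟩
  exact h1.prodMk_nhds h2

theorem norm_le_of_tr (v : L2) (B : ℝ)
    (h : ∀ (n : ℕ) (g : L2), ‖g‖ ≤ 1 → |inner ℝ (tr n g) v| ≤ B) : ‖v‖ ≤ B := by
  by_cases hv : v = 0
  · simpa [hv] using h 0 0 (by simp)
  have hn : 0 < ‖v‖ := norm_pos_iff.2 hv
  have h1 : Tendsto (fun n => |inner ℝ (tr n (‖v‖⁻¹ • v)) v|) atTop (𝓝 |inner ℝ (‖v‖⁻¹ • v) v|) :=
    ((tr_tendsto _).inner tendsto_const_nhds).abs
  have h2 : |inner ℝ (‖v‖⁻¹ • v) v| = ‖v‖ := by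
    rw [inner_smul_left, real_inner_self_eq_norm_sq]
    simp only [conj_trivial]
    rw [abs_of_nonneg (by positivity)]; field_simp
  rw [← h2]
  exact le_of_tendsto' h1 fun n => h n _ (by
    rw [norm_smul, norm_inv, norm_norm, inv_mul_cancel₀ hn.ne'])

theorem main : ∃ (Z : Type) (_ : NormedAddCommGroup Z) (_ : NormedSpace ℝ Z), CompleteSpace Z ∧
    TopologicalSpace.SeparableSpace Z ∧ C0Free Z ∧ ∃ Ψ : Z × C₀(ℕ, L2) → Z,
      Function.Surjective Ψ ∧
      ∀ s t, ‖s - t‖ ≤ 33 / 10 * ‖Ψ s - Ψ t‖ ∧ ‖Ψ s - Ψ t‖ ≤ 33 / 10 * ‖s - t‖ := by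
  classical
  haveI := l2_separable
  haveI : TopologicalSpace.SeparableSpace BB := c0_separable
  haveI : SecondCountableTopology BB := UniformSpace.secondCountable_of_separable BB
  obtain ⟨π, hπ⟩ := exists_params
  obtain ⟨F, hF0, hF1, hF2⟩ := exists_family π
  obtain ⟨Z, i1, i2, hc, hs, hfree, δ, hδ, hden, hT⟩ :=
    exists_space oo F hF1 hF2 (show (0 : ℝ) < 1 / 100 by norm_num) L2
  choose T hT1 hT2 using fun (i : ℕ) (k : ℤ) (us : List ℤ) => hT (ee i k us) (101 / 100)
    (by norm_num) fun v B h => norm_le_of_tr v B fun n g hg => h _ (hF0 ▸ hπ i k us n g hg)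
  have hT3 : ∀ i k us b, T i k us (δ b) = ee i k us b := fun i k us b => by
    rw [hT2]; simp [ee, oo]
  let q : ℕ → Z → ℝ := fun i z => ⨆ p : ℤ × List ℤ, ‖T i p.1 p.2 z‖
  have le_q : ∀ i k us z, ‖T i k us z‖ ≤ q i z := fun i k us z =>
    le_ciSup (f := fun p : ℤ × List ℤ => ‖T i p.1 p.2 z‖)
      ⟨_, by rintro _ ⟨p, rfl⟩; exact hT1 _ _ _ _⟩ (k, us)
  have q_le : ∀ i z B, (∀ k us, ‖T i k us z‖ ≤ B) → q i z ≤ B := fun i z B h =>
    ciSup_le fun p => h _ _
  have qnn : ∀ i z, 0 ≤ q i z := fun i z => (norm_nonneg _).trans (le_q i 0 [] z)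
  have qadd : ∀ i z z', q i (z + z') ≤ q i z + q i z' := fun i z z' => q_le _ _ _ fun k us => by
    rw [map_add]; exact (norm_add_le _ _).trans (add_le_add (le_q _ _ _ _) (le_q _ _ _ _))
  have qle : ∀ i z, q i z ≤ 101 / 100 * ‖z‖ := fun i z => q_le _ _ _ fun k us => hT1 _ _ _ _
  have qδ : ∀ i b, q i (δ b) ≤ ‖(b.1 i).1‖ := fun i b => q_le _ _ _ fun k us => by
    rw [hT3]; exact ee_norm _ _ _ _
  have qlim : ∀ z, Tendsto (fun i => q i z) atTop (𝓝 0) := by
    have h1 : ∀ z ∈ Submodule.span ℝ (Set.range δ), Tendsto (fun i => q i z) atTop (𝓝 0) := by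
      intro z hz
      induction hz using Submodule.span_induction with
      | mem x hx =>
        obtain ⟨b, rfl⟩ := hx
        exact squeeze_zero (fun i => qnn _ _) (fun i => qδ i b)
          (by simpa using (c0_tendsto b.1).fst_nhds.norm)
      | zero => exact squeeze_zero (fun i => qnn _ _) (fun i => qle i 0) (by simp)
      | add x y _ _ hx hy =>
        exact squeeze_zero (fun i => qnn _ _) (fun i => qadd i x y) (by simpa using hx.add hy)
      | smul a x _ hx =>
        refine squeeze_zero (fun i => qnn _ _) (g := fun i => ‖a‖ * q i x)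
          (fun i => q_le _ _ _ fun k us => ?_) (by simpa using hx.const_mul ‖a‖)
        rw [map_smul, norm_smul]
        exact mul_le_mul_of_nonneg_left (le_q _ _ _ _) (norm_nonneg _)
    intro z
    refine tendsto_order.2 ⟨fun a ha => Eventually.of_forall fun i => ha.trans_le (qnn _ _),
      fun a ha => ?_⟩
    obtain ⟨z', hz', hd⟩ := hden.exists_dist_lt z (show 0 < a / 4 by positivity)
    filter_upwards [(h1 z' hz').eventually (gt_mem_nhds (show 0 < a / 2 by positivity))] with i hi
    have a1 := qadd i z' (z - z')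
    have a2 := qle i (z - z')
    rw [add_sub_cancel] at a1
    rw [dist_eq_norm] at hd
    linarith
  let φ : ℕ → BB → Z → L2 := fun i y z =>
    I1 (lg (y i).2) fun k => IL (pos k y) fun us => T i k us z
  have φle : ∀ i y z, ‖φ i y z‖ ≤ q i z := fun i y z =>
    I1_le _ _ fun k _ => IL_le _ _ fun us _ => le_q _ _ _ _
  let d : HData L2 Z :=
    { δ := fun b => if h : Cone b then δ ⟨b, h⟩ else 0
      q := q
      φ := φ
      δlip := fun b b' hb hb' => by
        rw [dif_pos hb, dif_pos hb']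
        have := hδ ⟨b, hb⟩ ⟨b', hb'⟩
        rw [Pt.dist_eq] at this
        linarith
      qnn := qnn, qadd := qadd, qle := qle
      qδ := fun i b hb => by rw [dif_pos hb]; exact qδ i ⟨b, hb⟩
      qlim := qlim
      φsub := fun i y z z' => by simp only [φ, map_sub, IL_sub, I1_sub]
      φle := φle
      φδ := fun i b hb => by
        rw [dif_pos hb, ← sub_eq_zero, ← norm_le_zero_iff]
        simp only [φ]
        rw [← I1_const (lg (b i).2) (b i).1, ← I1_sub]
        refine I1_le _ _ fun k hk => ?_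
        rw [← IL_const (pos k b) (b i).1, ← IL_sub]
        refine IL_le _ _ fun us hus => ?_
        rw [hT3, ee, om_one hk (dev_le_one hus)]; simp
      φvar := fun i y y' z h1 h2 => by
        have hd := norm_nonneg (y - y')
        have hq := qnn i z
        rcases eq_or_lt_of_le hq with h0 | h0
        · have := φle i y z
          have := φle i y' z
          exact (norm_sub_le _ _).trans (by linarith)
        have hτ : 0 < (y i).2 := by linarith
        have b1 : ‖φ i y z - I1 (lg (y i).2) fun k => IL (pos k y') fun us => T i k us z‖ ≤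
            1 / 100 * ‖y - y'‖ := by
          simp only [φ]
          rw [← I1_sub]
          refine I1_le _ _ fun k hk => (IL_var _ _ _ _ (fun us => le_q i k us z)
            (pos_close k y y')).trans ?_
          have a1 : (y i).2 ≤ TT k := lg_le hτ (by linarith)
          have a2 := TT_pos k
          have a3 : (0 : ℝ) ≤ (coords (mm k)).length := Nat.cast_nonneg _
          rw [mul_div_assoc', div_mul_eq_mul_div, div_le_iff₀ (WW_pos k), WW]
          have a4 : q i z ≤ 100 * TT k := by linarith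
          have a5 := mul_le_mul_of_nonneg_left a4 (mul_nonneg a3 hd)
          nlinarith [mul_nonneg a2.le hd]
        have b2 : ‖(I1 (lg (y i).2) fun k => IL (pos k y') fun us => T i k us z) - φ i y' z‖ ≤
            1 / 100 * ‖y - y'‖ := by
          refine (I1_var _ _ _ fun k => IL_le _ _ fun us _ => le_q i k us z).trans ?_
          have a1 := lg_lip hτ h2
          have a2 := snd_sub_le y y' i
          have a3 := mul_le_mul_of_nonneg_left (show q i z ≤ 100 * (y i).2 by linarith)
            (abs_nonneg (lg (y i).2 - lg (y' i).2))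
          linarith
        exact (norm_sub_le_norm_sub_add_norm_sub _ _ _).trans ((add_le_add b1 b2).trans
          (by linarith)) }
  obtain ⟨Ψ, h1, h2⟩ := hotel d
  exact ⟨Z × Z, inferInstance, inferInstance, inferInstance, inferInstance, hfree.prod, Ψ, h1, h2⟩

/-- A `c₀`-free space has no closed subspace isomorphic to `c₀(E)`. -/
theorem C0Free.no_c0 {Z E : Type} [NormedAddCommGroup Z] [NormedSpace ℝ Z] (h : C0Free Z)
    [NormedAddCommGroup E] [NormedSpace ℝ E] (x : E) (hx : x ≠ 0) (T : C₀(ℕ, E) →L[ℝ] Z)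
    (K : ℝ) (hK : ∀ v, ‖v‖ ≤ K * ‖T v‖) : False := by
  let e : ℕ → C₀(ℕ, E) := fun i => mk0 (Pi.single i x) (c0_single_tendsto i x)
  have h1 := h (fun i => T (e i)) ⟨‖T‖ * ‖x‖, fun s c hc => by
    simp only [← map_smul, ← map_sum]
    refine (T.le_opNorm _).trans (mul_le_mul_of_nonneg_left
      (c0_norm_le _ (norm_nonneg _) fun j => ?_) (norm_nonneg _))
    have : ∀ s : Finset ℕ, (∑ i ∈ s, c i • e i) j = if j ∈ s then c j • x else 0 := by
      intro s
      induction s using Finset.induction_on with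
      | empty => simp
      | insert a s ha ih =>
        rw [Finset.sum_insert ha, ZeroAtInftyContinuousMap.add_apply, ih,
          ZeroAtInftyContinuousMap.smul_apply]
        by_cases hj : j = a
        · subst hj; simp [e, ha]
        · simp [e, hj]
    rw [this]; split_ifs
    · rw [norm_smul]; exact mul_le_of_le_one_left (norm_nonneg _) (hc j)
    · simp⟩
  have h2 : ∀ i, ‖x‖ ≤ K * ‖T (e i)‖ := fun i =>
    le_trans (by simpa [e] using c0_apply_le (e i) i) (hK _)
  have h3 := ge_of_tendsto' (h1.norm.const_mul K) h2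
  simp only [norm_zero, mul_zero, norm_le_zero_iff] at h3
  exact hx h3

theorem C0Free.isEmpty {Z E : Type} [NormedAddCommGroup Z] [NormedSpace ℝ Z] (h : C0Free Z)
    [NormedAddCommGroup E] [NormedSpace ℝ E] (x : E) (hx : x ≠ 0) (S : Submodule ℝ Z) :
    IsEmpty (S ≃L[ℝ] C₀(ℕ, E)) :=
  ⟨fun e => h.no_c0 x hx (S.subtypeL.comp (e.symm : C₀(ℕ, E) →L[ℝ] S))
    ‖(e : S →L[ℝ] C₀(ℕ, E))‖ fun v => by
      simpa using (e : S →L[ℝ] C₀(ℕ, E)).le_opNorm (e.symm v)⟩

end Crest.Agent.LE
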