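import Crest.Agent.LE.Th

set_option autoImplicit false
open Filter Topology Finset

namespace Crest.Agent.LE

variable {X : Type} [MetricSpace X]
variable {S : Setup X} {H : Type} [NormedAddCommGroup H] [InnerProductSpace ℝ H]

/-- data of a combination of negligible parts -/
structure NegData (π : Params S H) (n0 : ℕ) (f : ℕ → X → ℝ) (c : ℕ → ℕ → X)
    (mid : ℕ → ℕ → X → ℝ) (Kf : ℕ → ℕ) (K : ℕ → ℕ) (cc : ℕ → X) : Prop where
  adm : ∀ l, Adm π (f l) (c l) (mid l) (Kf l)
  mono : StrictMono K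
  k0 : n0 ≤ K 0
  kf : ∀ l, Kf l ≤ K (l + 1)
  dep : ∀ l b, f l (S.Q (K (l + 1)) b) - mid l (K l) (S.Q (K (l + 1)) b) = f l b - mid l (K l) b
  bd : ∀ l b, |f l b - mid l (K l) b| * (4 / π.R (K (l + 1))) ≤ (1 / 2) ^ l
  ccm : ∀ n, cc n ∈ π.Cn n
  cce : ∀ l n, K l ≤ n → n < K (l + 1) → cc n = c l n

/-- carved constituent -/
noncomputable def nu (π : Params S H) (f : ℕ → X → ℝ) (mid : ℕ → ℕ → X → ℝ) (K : ℕ → ℕ)
    (cc : ℕ → X) (J' P l : ℕ) (b : X) : ℝ :=
  (f l (Th π cc (K (l + 1)) P b) - mid l (K l) (Th π cc (K (l + 1)) P b)) *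
    cut S (π.R (K (l + 1))) 0 J' b

variable {π : Params S H} {n0 : ℕ} {f : ℕ → X → ℝ} {c : ℕ → ℕ → X}
    {mid : ℕ → ℕ → X → ℝ} {Kf : ℕ → ℕ} {K : ℕ → ℕ} {cc : ℕ → X}

theorem NegData.tlip (h : NegData π n0 f c mid Kf K cc) (l : ℕ) (x y : X) :
    |(f l x - mid l (K l) x) - (f l y - mid l (K l) y)| ≤ (1 + π.C) * dist x y := by
  have h1 := (h.adm l).lip x y
  have h2 := ((h.adm l).mid_ok (K l)).lip x y
  have e1 : (f l x - mid l (K l) x) - (f l y - mid l (K l) y) =
      (f l x - f l y) - (mid l (K l) x - mid l (K l) y) := by ring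
  rw [e1]
  have := abs_sub (f l x - f l y) (mid l (K l) x - mid l (K l) y)
  linarith

theorem NegData.nu_lip (h : NegData π n0 f c mid Kf K cc) (J' P l : ℕ) (x y : X) :
    |nu π f mid K cc J' P l x - nu π f mid K cc J' P l y| ≤ (2 * (1 + π.C) + 1) * dist x y := by
  have hR := π.Rpos (K (l + 1))
  have hC := π.C0
  have := mul_lip (f := fun b => f l (Th π cc (K (l + 1)) P b) - mid l (K l) (Th π cc (K (l + 1)) P b))
    (g := cut S (π.R (K (l + 1))) 0 J') (L := 2 * (1 + π.C)) (D := π.R (K (l + 1)) / 4)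
    (M := 4 / π.R (K (l + 1))) (fun x y => (h.tlip l _ _).trans (by
      have := mul_le_mul_of_nonneg_left (Th_lip π cc (K (l + 1)) P x y) (show 0 ≤ 1 + π.C by linarith)
      linarith)) (fun x => by
        have h1 := h.bd l (Th π cc (K (l + 1)) P x)
        have h2 : ((1 : ℝ) / 2) ^ l ≤ 1 := pow_le_one₀ (by norm_num) (by norm_num)
        have h3 := h1.trans h2
        rw [mul_div_assoc', div_le_one hR] at h3
        linarith) (cut_lip S hR 0 J') (cut_abs S _ 0 J') x y
  have e : π.R (K (l + 1)) / 4 * (4 / π.R (K (l + 1))) = 1 := by field_simp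
  rw [e] at this
  exact this

theorem NegData.sum_lip (h : NegData π n0 f c mid Kf K cc) (hl : Lac π n0) (e : ℕ → ℝ)
    (he : ∀ l, |e l| ≤ 1) (n J' P : ℕ) (hP : ∀ l < n, K (l + 1) ≤ P)
    (hJ : ∀ l < n, K (l + 1) ≤ J') (x y : X) :
    |∑ l ∈ range n, e l * nu π f mid K cc J' P l x - ∑ l ∈ range n, e l * nu π f mid K cc J' P l y|
      ≤ (2 * (1 + π.C) + 3) * dist x y := by
  classical
  have hC := π.C0
  have hK0 : ∀ l, n0 ≤ K l := fun l => h.k0.trans (h.mono.monotone (Nat.zero_le l))
  refine S.loc (fun x => ∑ l ∈ range n, e l * nu π f mid K cc J' P l x) _ (fun b => ?_) x y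
  set r0 := π.s (max P n0) / 4 with hr0
  have hr0p : 0 < r0 := by have := π.spos (max P n0); positivity
  have hr0le : ∀ i, n0 ≤ i → i ≤ P → r0 ≤ π.s i / 4 := fun i h1 h2 => by
    have := hl.anti h1 (h2.trans (le_max_left P n0)); simp only [hr0]; linarith
  set Act : ℕ → Prop := fun l => (∃ j < J', π.R (K l) / 2 < S.τ j b) ∨
    ∃ i, K l ≤ i ∧ i < K (l + 1) ∧ dist (S.Q i b) (cc i) < 3 / 2 * π.s i with hAct
  have inact : ∀ l < n, ¬ Act l → ∀ x, dist x b < r0 → nu π f mid K cc J' P l x = 0 := by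
    intro l hln hna x hx
    obtain ⟨m', hm'⟩ : ∃ m', K (l + 1) = m' + 1 :=
      ⟨K (l + 1) - 1, by have := h.mono (Nat.lt_add_one l); omega⟩
    have hm1 : K l ≤ m' := by have := h.mono (Nat.lt_add_one l); omega
    have hA : ∑ i ∈ Ico (K (l + 1)) P, 2 * π.s i ≤ π.s m' / 4 := by
      rw [hm']; exact hl.sum ((hK0 l).trans hm1) P
    have hr := hr0le m' ((hK0 l).trans hm1) (by have := hP l hln; omega)
    have : f l (Th π cc (K (l + 1)) P x) - mid l (K l) (Th π cc (K (l + 1)) P x) = 0 := by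
      rw [← h.dep]
      by_contra hne
      rcases (h.adm l).supp (K l) _ (sub_ne_zero.1 hne) with ⟨j, hj⟩ | ⟨i, hi1, hi2, hi⟩
      · have hjm : j < K (l + 1) := by
          by_contra hc; rw [S.τQ, if_neg hc] at hj; linarith [π.Rpos (K l)]
        refine hna (Or.inl ⟨j, hjm.trans_le (hJ l hln), ?_⟩)
        have a1 := (abs_le.1 (S.τlip j (S.Q (K (l + 1)) (Th π cc (K (l + 1)) P x))
          (S.Q (K (l + 1)) x))).2
        have a2 := Th_disp π cc (le_refl (K (l + 1))) P x
        have a3 := (abs_le.1 (S.τlip j x b)).2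
        have a4 : S.τ j (S.Q (K (l + 1)) x) = S.τ j x := by rw [S.τQ, if_pos hjm]
        have a5 := hl.anti (hK0 l) hm1
        have a6 := (hl (K l) (hK0 l)).2
        linarith
      · have him : i < K (l + 1) := hi2.trans_le (h.kf l)
        refine hna (Or.inr ⟨i, hi1, him, ?_⟩)
        rw [S.QQ _ _ _ him.le, ← h.cce l i hi1 him] at hi
        have a2 := Th_disp π cc him.le P x
        have a3 := S.Qlip i x b
        have a4 := dist_triangle4 (S.Q i b) (S.Q i x) (S.Q i (Th π cc (K (l + 1)) P x)) (cc i)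
        rw [dist_comm (S.Q i b) (S.Q i x), dist_comm (S.Q i x) (S.Q i (Th π cc (K (l + 1)) P x))]
          at a4
        have a5 := hl.anti ((hK0 l).trans hi1) (show i ≤ m' by omega)
        linarith
    unfold nu; rw [this, zero_mul]
  have locl : ∃ r > 0, ∃ l0, ∀ l < n, l ≠ l0 → ∀ x y, dist x b < r → dist y b < r →
      |nu π f mid K cc J' P l x - nu π f mid K cc J' P l y| ≤ (1 / 2) ^ l * dist x y := by
    by_cases hact : ∃ l < n, Act l
    · set A := (range n).filter Act with hA
      have hne : A.Nonempty := by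
        obtain ⟨l, hl, h⟩ := hact; exact ⟨l, by simp only [hA, mem_filter, mem_range]; exact ⟨hl, h⟩⟩
      have hmem := A.max'_mem hne
      set l0 := A.max' hne with hl0
      simp only [hA, mem_filter, mem_range] at hmem
      have hbig : ∀ l < n, l0 < l → ∀ x y, dist x b < r0 → dist y b < r0 →
          |nu π f mid K cc J' P l x - nu π f mid K cc J' P l y| ≤ (1 / 2) ^ l * dist x y := by
        intro l hln hl' x y hx hy
        have hna : ¬ Act l := fun hex => by
          have : l ≤ l0 := A.le_max' l (by simp only [hA, mem_filter, mem_range]; exact ⟨hln, hex⟩)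
          omega
        rw [inact l hln hna x hx, inact l hln hna y hy, sub_self, abs_zero]; positivity
      obtain ⟨hl0n, ⟨j, hjJ, hj⟩ | ⟨i, hi1, hi2, hi⟩⟩ := hmem
      · refine ⟨min r0 (S.τ j b - π.R (K l0) / 2), lt_min hr0p (by linarith), l0,
          fun l hln hne' x y hx hy => ?_⟩
        rcases lt_or_gt_of_ne hne' with h' | h'
        · have hz : ∀ x, dist x b < min r0 (S.τ j b - π.R (K l0) / 2) →
              nu π f mid K cc J' P l x = 0 := fun x hx => by
            unfold nu
            rw [cut_zero S (π.Rpos _) (Nat.zero_le j) hjJ, mul_zero]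
            have := (abs_le.1 (S.τlip j x b)).1
            have := (lt_min_iff.1 hx).2
            have := π.Rmono (h.mono.monotone (show l + 1 ≤ l0 from h'))
            linarith
          rw [hz x hx, hz y hy, sub_self, abs_zero]; positivity
        · exact hbig l hln h' x y (lt_min_iff.1 hx).1 (lt_min_iff.1 hy).1
      · refine ⟨r0, hr0p, l0, fun l hln hne' x y hx hy => ?_⟩
        rcases lt_or_gt_of_ne hne' with h' | h'
        · have hm : K (l + 1) ≤ i := (h.mono.monotone (show l + 1 ≤ l0 from h')).trans hi1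
          have hiP : i + 1 ≤ P := le_trans hi2 (hP l0 hl0n)
          have hi0 : n0 ≤ i := (hK0 l0).trans hi1
          have hz : ∀ x, dist x b < r0 → Th π cc (K (l + 1)) P x = Th π cc (K (l + 1)) i (cc i) :=
            fun x hx => Th_const π cc hm hiP x (by
              have a1 := hl.sum hi0 P
              have a2 := hr0le i hi0 (by omega)
              have a3 := S.Qlip i x b
              have a4 := dist_triangle (S.Q i x) (S.Q i b) (cc i)
              linarith)
          unfold nu
          rw [hz x hx, hz y hy, ← mul_sub, abs_mul]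
          refine (mul_le_mul_of_nonneg_left (cut_lip S (π.Rpos _) _ _ x y) (abs_nonneg _)).trans ?_
          rw [← mul_assoc]
          exact mul_le_mul_of_nonneg_right (h.bd l _) dist_nonneg
        · exact hbig l hln h' x y hx hy
    · refine ⟨r0, hr0p, n, fun l hln _ x y hx hy => ?_⟩
      have hna : ¬ Act l := fun h => hact ⟨l, hln, h⟩
      rw [inact l hln hna x hx, inact l hln hna y hy, sub_self, abs_zero]; positivity
  obtain ⟨r, hr, l0, hloc⟩ := locl
  refine ⟨r, hr, fun x y hx hy => ?_⟩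
  rw [← Finset.sum_sub_distrib]
  refine (Finset.abs_sum_le_sum_abs _ _).trans ?_
  have hd : 0 ≤ dist x y := dist_nonneg
  have : ∀ l ∈ range n, |e l * nu π f mid K cc J' P l x - e l * nu π f mid K cc J' P l y| ≤
      ((1 / 2) ^ l + if l = l0 then 2 * (1 + π.C) + 1 else 0) * dist x y := by
    intro l hl'
    rw [← mul_sub, abs_mul]
    refine (mul_le_of_le_one_left (abs_nonneg _) (he l)).trans ?_
    split_ifs with h0
    · refine (h.nu_lip J' P l x y).trans (mul_le_mul_of_nonneg_right ?_ hd)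
      have : (0 : ℝ) ≤ (1 / 2) ^ l := by positivity
      linarith
    · rw [add_zero]; exact hloc l (mem_range.1 hl') h0 x y hx hy
  refine (Finset.sum_le_sum this).trans ?_
  rw [← Finset.sum_mul, Finset.sum_add_distrib]
  refine mul_le_mul_of_nonneg_right ?_ hd
  have a1 : ∑ l ∈ range n, ((1 : ℝ) / 2) ^ l ≤ 2 := sum_geometric_two_le n
  have a2 : ∑ l ∈ range n, (if l = l0 then 2 * (1 + π.C) + 1 else 0) ≤ 2 * (1 + π.C) + 1 := by
    rw [Finset.sum_ite_eq']; split_ifs <;> linarith
  linarith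

end Crest.Agent.LE
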