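import Crest.Agent.LE.Neg

set_option autoImplicit false
open Filter Topology Finset

namespace Crest.Agent.LE

variable {X : Type} [MetricSpace X]
variable {S : Setup X} {H : Type} [NormedAddCommGroup H] [InnerProductSpace ℝ H]

theorem neg_adm (π : Params S H) {n0 : ℕ} (hl : Lac π n0) :
    ∃ (C' : ℝ) (π' : Params S H), 0 < C' ∧
    ∀ (N : ℕ) (f : ℕ → X → ℝ) (c : ℕ → ℕ → X) (mid : ℕ → ℕ → X → ℝ) (Kf : ℕ → ℕ) (K : ℕ → ℕ)
      (cc : ℕ → X) (e : ℕ → ℝ), NegData π n0 f c mid Kf K cc → (∀ l, |e l| ≤ 1) →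
      (fun b => (∑ l ∈ range N, e l * nu π f mid K cc (K N) (K N) l b) / C') ∈ cls π' := by
  classical
  have hC0 := π.C0
  set C' : ℝ := 2 * (1 + π.C) + 3 with hC'
  have hC1 : 1 ≤ C' := by linarith
  have hC'0 : 0 < C' := by linarith
  let U0 : ℕ → ℕ → Set (X → ℝ) := fun k J => {g | ∃ i ∈ range (k + 1), g ∈ π.K i J}
  have hU0 : ∀ k J, Dom H (U0 k J) := fun k J => Dom.biUnion _ _ fun i _ => π.Kdom i J
  let U1 : ℕ → ℕ → Set (X → ℝ) := fun k J =>
    {g | ∃ g1 ∈ U0 k J, ∃ g2 ∈ U0 k J, g = fun b => g1 b - g2 b}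
  have hU1 : ∀ k J, Dom H (U1 k J) := fun k J => (hU0 k J).sub (hU0 k J)
  let U2 : ℕ → Set (X → ℝ) := fun k => {g | ∃ p ∈ range (k + 1), g ∈
    {g | ∃ t ∈ U1 k k, ∃ cc : ℕ → X, (∀ n, cc n ∈ π.Cn n) ∧ ∃ m,
      g = fun b => t (Th π cc m p b)}}
  have hU2 : ∀ k, Dom H (U2 k) := fun k => Dom.biUnion _ _ fun p _ => Th_dom π (hU1 k k) p
  let U3 : ℕ → ℕ → Set (X → ℝ) := fun k J => {g | ∃ p ∈ range (k + 1) ×ˢ range (J + 1),
    g ∈ {g | ∃ g1 ∈ U2 k, g = fun b => g1 b * cut S (π.R p.1) 0 p.2 b}}
  have hU3 : ∀ k J, Dom H (U3 k J) := fun k J =>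
    Dom.biUnion _ _ fun p _ => (hU2 k).mul _ (cut_BL S (π.Rpos _) _ _)
  let U3' : ℕ → ℕ → Set (X → ℝ) := fun k J => {g | ∃ g1 ∈ U3 k J, g = fun b => g1 (S.P J b)}
  have hU3' : ∀ k J, Dom H (U3' k J) := fun k J =>
    (hU3 k J).comp _ 1 one_pos fun x y => by simpa using S.Plip J x y
  let U4 : ℕ → ℕ → Set (X → ℝ) := fun k J =>
    {g | ∃ g1 ∈ U3' k J, ∃ e : ℝ, |e| ≤ 1 ∧ g = fun b => e * g1 b}
  let U5 : ℕ → ℕ → Set (X → ℝ) := fun k J => {g | ∃ n ≤ k, ∃ G : ℕ → X → ℝ,
    (∀ l < n, G l ∈ U4 k J) ∧ g = fun b => ∑ l ∈ Finset.range n, G l b}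
  let U6 : ℕ → ℕ → Set (X → ℝ) := fun k J =>
    {g | ∃ g1 ∈ U1 k J, ∃ e : ℝ, |e| ≤ 1 ∧ g = fun b => e * g1 b}
  let U7 : ℕ → ℕ → Set (X → ℝ) := fun k J =>
    {g | ∃ g1 ∈ U5 k J, ∃ g2 ∈ U6 k J ∪ {fun _ => 0}, g = fun b => g1 b + g2 b}
  let U8 : ℕ → ℕ → Set (X → ℝ) := fun k J =>
    {g | ∃ g1 ∈ U7 k J, ∃ e : ℝ, |e| ≤ 1 ∧ g = fun b => e * g1 b}
  have hU8 : ∀ k J, Dom H (U8 k J) := fun k J =>
    (((hU3' k J).smul.sum k).add ((hU1 k J).smul.union Dom.zero)).smul
  have hsr : Tendsto (fun n : ℕ => (((n + 1 : ℕ) : ℝ) + 2) ^ 2 * (2 * π.s (n + 1)) /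
      (((n : ℝ) + 2) ^ 2 * (2 * π.s n))) atTop (𝓝 0) := by
    refine squeeze_zero (fun n => ?_) (fun n => ?_) (by simpa using π.srat.const_mul 4)
    · have := π.spos n; have := π.spos (n + 1); positivity
    · have h1 := π.spos n
      have h2 := π.spos (n + 1)
      have hn : (0 : ℝ) ≤ n := Nat.cast_nonneg n
      rw [div_le_iff₀ (by positivity)]
      have : 4 * (π.s (n + 1) / π.s n) * (((n : ℝ) + 2) ^ 2 * (2 * π.s n)) =
          4 * ((n : ℝ) + 2) ^ 2 * (2 * π.s (n + 1)) := by field_simp
      rw [this]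
      refine mul_le_mul_of_nonneg_right ?_ (by positivity)
      push_cast; nlinarith
  let π' : Params S H :=
    { C := 2, s := fun n => ((n : ℝ) + 2) ^ 2 * (2 * π.s n), R := fun k => π.R k / 4,
      Cn := π.Cn, ρ := fun k => min (π.ρ k) (π.R 0 / 4), J0 := fun k => max k (π.J0 k),
      D := fun k => ((k : ℝ) + 1) * (2 * π.D k), K := U8, C0 := zero_le_two,
      spos := fun n => by have := π.spos n; positivity,
      srat := hsr, Rmono := fun a b h => by have := π.Rmono h; simp only; linarith,
      Rlim := π.Rlim.atTop_div_const (by norm_num),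
      Rpos := fun k => by have := π.Rpos k; positivity, Cne := π.Cne,
      ρpos := fun k => lt_min (π.ρpos k) (by have := π.Rpos 0; positivity),
      ρanti := fun a b h => min_le_min_right _ (π.ρanti h),
      J0mono := fun a b h => max_le_max h (π.J0mono h),
      Dmono := fun a b h => by
        have := π.Dmono h; have := π.Dnn a; have : (a : ℝ) ≤ b := by exact_mod_cast h
        simp only; gcongr
      Dnn := fun k => by have := π.Dnn k; positivity, Kdom := hU8 }
  refine ⟨C', π', hC'0, fun N f c mid Kf K cc e h he => ?_⟩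
  set u : ℕ → ℕ → X → ℝ := fun P l b => e l * nu π f mid K cc (K N) P l b with hu
  set F : X → ℝ := fun b => (∑ l ∈ range N, u (K N) l b) / C' with hF
  change F ∈ cls π'
  set l0 : ℕ → ℕ := fun k => Nat.findGreatest (fun l => K l < k) N with hl0
  have l0N : ∀ k, l0 k ≤ N := fun k => Nat.findGreatest_le N
  have l0K : ∀ k l, l < l0 k → K (l + 1) < k := fun k l hl' => by
    have : K (l0 k) < k := Nat.findGreatest_of_ne_zero (P := fun l => K l < k) rfl (by
      change l0 k ≠ 0; omega)
    exact (h.mono.monotone (show l + 1 ≤ l0 k from hl')).trans_lt this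
  have l0K' : ∀ k l, l0 k < l → l ≤ N → k ≤ K l := fun k l h1 h2 =>
    not_lt.1 (Nat.findGreatest_is_greatest (P := fun l => K l < k) h1 h2)
  set st : ℕ → X → ℝ := fun k b => if l0 k < N ∧ K (l0 k) < k then
    e (l0 k) * (mid (l0 k) k b - mid (l0 k) (K (l0 k)) b) else 0 with hst
  set M : ℕ → X → ℝ := fun k b =>
    (∑ l ∈ range (l0 k), u (min k (K N)) l b + st k b) / C' with hM
  have hPk : ∀ k l, l < l0 k → K (l + 1) ≤ min k (K N) := fun k l hl' =>
    le_min (l0K k l hl').le (h.mono.monotone (by have := l0N k; omega))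
  have fm : ∀ l, f l = mid l (K (l + 1)) := fun l => ((h.adm l).meq _ (h.kf l)).symm
  have Flip : ∀ x y, |F x - F y| ≤ dist x y := fun x y => by
    simp only [hF]
    rw [← sub_div, abs_div, abs_of_pos hC'0, div_le_iff₀ hC'0, mul_comm]
    exact h.sum_lip hl e he N (K N) (K N) (fun l hl' => h.mono.monotone hl')
      (fun l hl' => h.mono.monotone hl') x y
  have uQ : ∀ P l n b, K (l + 1) ≤ P → P ≤ n → K N ≤ n → u P l (S.Q n b) = u P l b := by
    intro P l n b h1 h2 h3
    simp only [hu, nu]
    rw [cut_Q S _ h3, dep_mono S (f := fun b => f l (Th π cc (K (l + 1)) P b) -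
      mid l (K l) (Th π cc (K (l + 1)) P b))
      (Th_dep π cc (t := fun b => f l b - mid l (K l) b) (h.dep l) h1) h2]
  have thP : ∀ P l J b, K (l + 1) ≤ P → P ≤ J →
      f l (Th π cc (K (l + 1)) P (S.P J b)) - mid l (K l) (Th π cc (K (l + 1)) P (S.P J b)) =
      f l (Th π cc (K (l + 1)) P b) - mid l (K l) (Th π cc (K (l + 1)) P b) :=
    fun P l J b h1 h2 => dep_P S (f := fun b => f l (Th π cc (K (l + 1)) P b) -
      mid l (K l) (Th π cc (K (l + 1)) P b))
      (Th_dep π cc (t := fun b => f l b - mid l (K l) b) (h.dep l) h1) h2 b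
  have hMid : ∀ k, Mid π' k (M k) := by
    intro k
    refine ⟨fun x y => ?_, ?_, fun J b hJ hb => ?_, fun J => ?_, fun b => ?_⟩
    · change _ ≤ 2 * dist x y
      simp only [hM]
      rw [← sub_div, abs_div, abs_of_pos hC'0, div_le_iff₀ hC'0, add_sub_add_comm]
      refine (abs_add_le _ _).trans ?_
      have a1 := h.sum_lip hl e he (l0 k) (K N) (min k (K N)) (hPk k)
        (fun l hl' => (hPk k l hl').trans (min_le_right _ _)) x y
      have a2 : |st k x - st k y| ≤ 2 * π.C * dist x y := by
        simp only [hst]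
        split_ifs
        · rw [← mul_sub, abs_mul]
          refine (mul_le_of_le_one_left (abs_nonneg _) (he _)).trans ?_
          have b1 := ((h.adm (l0 k)).mid_ok k).lip x y
          have b2 := ((h.adm (l0 k)).mid_ok (K (l0 k))).lip x y
          rw [sub_sub_sub_comm]
          exact (abs_sub _ _).trans (by linarith)
        · simp; positivity
      have : 0 ≤ dist x y := dist_nonneg
      simp only [hu]
      nlinarith
    · obtain ⟨n1, h1⟩ := ((h.adm (l0 k)).mid_ok k).dep
      obtain ⟨n2, h2⟩ := ((h.adm (l0 k)).mid_ok (K (l0 k))).dep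
      refine ⟨max (K N) (max n1 n2), fun b => ?_⟩
      simp only [hM, hst]
      rw [dep_mono S h1 (by omega), dep_mono S h2 (by omega)]
      congr 2
      exact Finset.sum_congr rfl fun l hl' =>
        uQ _ _ _ _ (hPk k l (mem_range.1 hl')) (by omega) (by omega)
    · change max k (π.J0 k) ≤ J at hJ
      change ∀ j, J ≤ j → S.τ j b < min (π.ρ k) (π.R 0 / 4) at hb
      simp only [hM]
      congr 2
      · refine Finset.sum_congr rfl fun l hl' => ?_
        simp only [hu, nu]
        rw [thP _ _ _ _ (hPk k l (mem_range.1 hl')) (by omega), cut_thr S (π.Rpos _)]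
        intro j hj
        have := (lt_min_iff.1 (hb j hj)).2
        have := π.Rmono (Nat.zero_le (K (l + 1)))
        linarith
      · simp only [hst]
        split_ifs with h1
        · rw [((h.adm (l0 k)).mid_ok k).thr J b (by omega) fun j hj => (lt_min_iff.1 (hb j hj)).1,
            ((h.adm (l0 k)).mid_ok (K (l0 k))).thr J b ((π.J0mono h1.2.le).trans (by omega))
              fun j hj => (lt_min_iff.1 (hb j hj)).1.trans_le (π.ρanti h1.2.le)]
        · rfl
    · change _ ∈ U8 k J
      have hl0k : l0 k ≤ k := by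
        rcases Nat.eq_zero_or_pos (l0 k) with h0 | h0
        · omega
        · have := l0K k (l0 k - 1) (by omega)
          have := h.mono.id_le (l0 k - 1 + 1)
          simp only [id] at this; omega
      refine ⟨_, ⟨_, ⟨l0 k, hl0k, fun l b => u (min k (K N)) l (S.P J b), fun l hl' => ?_, rfl⟩,
        fun b => st k (S.P J b), ?_, rfl⟩, C'⁻¹, ?_, ?_⟩
      · have hK1 := l0K k l hl'
        have hK2 : K l < K (l + 1) := h.mono (Nat.lt_add_one l)
        refine ⟨_, ⟨_, ⟨(K (l + 1), min J (K N)), ?_, _, ⟨min k (K N), ?_,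
          fun b => f l b - mid l (K l) b, ⟨_, ⟨K (l + 1), ?_, ((h.adm l).mid_ok _).dom k⟩, _,
            ⟨K l, ?_, ((h.adm l).mid_ok _).dom k⟩, ?_⟩, cc, h.ccm, K (l + 1), rfl⟩, rfl⟩, rfl⟩,
          e l, he l, ?_⟩
        · simp only [mem_product, mem_range]; omega
        · simp only [mem_range]; omega
        · simp only [mem_range]; omega
        · simp only [mem_range]; omega
        · funext b
          rw [← fm l]
          exact (dep_P S (f := fun b => f l b - mid l (K l) b) (h.dep l) hK1.le b).symm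
        · funext b
          simp only [hu, nu]
          rw [cut_P, cut_P, ← min_assoc, min_self]
      · simp only [hst]
        split_ifs with h1
        · exact Or.inl ⟨_, ⟨_, ⟨k, by simp, ((h.adm (l0 k)).mid_ok _).dom J⟩, _,
            ⟨K (l0 k), by simp only [mem_range]; omega, ((h.adm (l0 k)).mid_ok _).dom J⟩, rfl⟩,
            e (l0 k), he _, rfl⟩
        · exact Or.inr rfl
      · rw [abs_of_pos (inv_pos.2 hC'0)]; exact inv_le_one_of_one_le₀ hC1
      · funext b
        simp only [hM]
        rw [div_eq_inv_mul]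
    · change _ ≤ ((k : ℝ) + 1) * (2 * π.D k)
      have hD := π.Dnn k
      have hl0k : l0 k ≤ k := by
        rcases Nat.eq_zero_or_pos (l0 k) with h0 | h0
        · omega
        · have := l0K k (l0 k - 1) (by omega)
          have := h.mono.id_le (l0 k - 1 + 1)
          simp only [id] at this; omega
      have a1 : ∀ l ∈ range (l0 k), |u (min k (K N)) l b| ≤ 2 * π.D k := by
        intro l hl'
        have hK1 := l0K k l (mem_range.1 hl')
        have hK2 : K l < K (l + 1) := h.mono (Nat.lt_add_one l)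
        simp only [hu, nu]
        rw [abs_mul, abs_mul]
        refine (mul_le_of_le_one_left (by positivity) (he l)).trans ?_
        refine (mul_le_of_le_one_right (abs_nonneg _) (cut_abs S _ _ _ _)).trans ?_
        rw [fm l]
        refine (abs_sub _ _).trans ?_
        have b1 := ((h.adm l).mid_ok (K (l + 1))).bdd (Th π cc (K (l + 1)) (min k (K N)) b)
        have b2 := ((h.adm l).mid_ok (K l)).bdd (Th π cc (K (l + 1)) (min k (K N)) b)
        have := π.Dmono hK1.le
        have := π.Dmono (hK2.trans hK1).le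
        linarith
      have a2 : |st k b| ≤ 2 * π.D k := by
        simp only [hst]
        split_ifs with h1
        · rw [abs_mul]
          refine (mul_le_of_le_one_left (by positivity) (he _)).trans ((abs_sub _ _).trans ?_)
          have b1 := ((h.adm (l0 k)).mid_ok k).bdd b
          have b2 := ((h.adm (l0 k)).mid_ok (K (l0 k))).bdd b
          have := π.Dmono h1.2.le
          linarith
        · simp; positivity
      have a3 : |∑ l ∈ range (l0 k), u (min k (K N)) l b| ≤ k * (2 * π.D k) := by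
        refine (Finset.abs_sum_le_sum_abs _ _).trans ((Finset.sum_le_sum a1).trans ?_)
        simp only [sum_const, card_range, nsmul_eq_mul]
        gcongr
      simp only [hM]
      rw [abs_div, abs_of_pos hC'0, div_le_iff₀ hC'0]
      refine (abs_add_le _ _).trans ?_
      have : 0 ≤ ((k : ℝ) + 1) * (2 * π.D k) := by positivity
      nlinarith
  refine ⟨cc, M, K N + 1, Flip, h.ccm, hMid, fun k hk => ?_, fun k b hne => ?_⟩
  · have : l0 k = N := le_antisymm (l0N k) (Nat.le_findGreatest le_rfl (by omega))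
    funext b
    simp only [hM, hst, hF]
    rw [this, if_neg (by omega), min_eq_right (by omega), add_zero]
  · by_contra hcon
    push Not at hcon
    obtain ⟨hfar, hball⟩ := hcon
    change ∀ j, S.τ j b ≤ π.R k / 4 at hfar
    change ∀ n, k ≤ n → n < K N + 1 → ((n : ℝ) + 2) ^ 2 * (2 * π.s n) ≤ dist (S.Q n b) (cc n)
      at hball
    apply hne
    rcases eq_or_lt_of_le (l0N k) with hN | hN
    · simp only [hM, hst, hF]
      have : K N ≤ k ∨ N = 0 := by
        rcases Nat.eq_zero_or_pos N with h0 | h0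
        · exact Or.inr h0
        · have := l0K k (N - 1) (by omega)
          rw [Nat.sub_add_cancel h0] at this; exact Or.inl this.le
      rw [hN, if_neg (by omega), add_zero]
      rcases this with h1 | h1
      · rw [min_eq_right h1]
      · subst h1; simp
    · have hk1 : k ≤ K (l0 k + 1) := l0K' k _ (Nat.lt_add_one _) hN
      have hkN : k ≤ K N := hk1.trans (h.mono.monotone hN)
      have hsupp : ∀ l < N, ∀ k', k ≤ k' → K l ≤ k' → f l b = mid l k' b := by
        intro l hlN k' h1 h2
        by_contra hne'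
        rcases (h.adm l).supp k' b hne' with ⟨j, hj⟩ | ⟨n, hn1, hn2, hn⟩
        · have := hfar j; have := π.Rmono h1; have := π.Rpos k; linarith
        · have hn3 : n < K (l + 1) := hn2.trans_le (h.kf l)
          have := hball n (h1.trans hn1) (by have := h.mono.monotone (show l + 1 ≤ N from hlN); omega)
          rw [h.cce l n (h2.trans hn1) hn3] at this
          have a1 := one_lt_lam n
          have a2 := π.spos n
          nlinarith
      have hu1 : ∀ l < N, k ≤ K (l + 1) → u (K N) l b = e l * (f l b - mid l (K l) b) := by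
        intro l hlN h1
        simp only [hu, nu]
        rw [Th_agree π cc (t := fun b => f l b - mid l (K l) b) (h.dep l) le_rfl
          (h.mono.monotone (show l + 1 ≤ N from hlN)) b fun n h2 h3 =>
            hball n (h1.trans h2) (by omega), Th_le π cc le_rfl, cut_one S (π.Rpos _), mul_one]
        intro j _ _
        have := hfar j; have := π.Rmono h1; linarith
      simp only [hM, hF]
      congr 1
      rw [← Finset.sum_range_add_sum_Ico _ hN.le, Finset.sum_eq_sum_Ico_succ_bot hN,
        Finset.sum_eq_zero (s := Ico (l0 k + 1) N), add_zero, min_eq_left hkN]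
      · congr 1
        · refine Finset.sum_congr rfl fun l hl' => ?_
          simp only [hu, nu]
          rw [Th_agree π cc (t := fun b => f l b - mid l (K l) b) (h.dep l)
            (l0K k l (mem_range.1 hl')).le hkN b fun n h2 h3 => hball n h2 (by omega)]
        · rw [hu1 _ hN hk1]
          simp only [hst]
          split_ifs with h1
          · rw [hsupp _ hN k le_rfl h1.2.le]
          · have : k ≤ K (l0 k) := by by_contra hc; exact h1 ⟨hN, by omega⟩
            rw [hsupp _ hN (K (l0 k)) this le_rfl]; simp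
      · intro l hl'
        obtain ⟨h1, h2⟩ := Finset.mem_Ico.1 hl'
        have : k ≤ K l := hk1.trans (h.mono.monotone h1)
        rw [hu1 l h2 (this.trans (h.mono.monotone (Nat.le_succ l))),
          hsupp l h2 (K l) this le_rfl]; simp

end Crest.Agent.LE
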