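import Crest.Agent.LE.Main

set_option autoImplicit false
open Filter Topology
open scoped ZeroAtInfty ENNReal

namespace Crest.Agent.LE

theorem two_pos' : 0 < (2 : ℝ≥0∞).toReal := by norm_num

/-- prepend a coordinate -/
def consF (t : ℝ) (h : ℕ → ℝ) : ℕ → ℝ
  | 0 => t
  | n + 1 => h n

/-- prepend a coordinate -/
noncomputable def cons (t : ℝ) (h : L2) : L2 :=
  ⟨consF t h, memℓp_gen ((summable_nat_add_iff
    (f := fun n => ‖consF t h n‖ ^ (2 : ℝ≥0∞).toReal) 1).1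
    ((lp.memℓp h).summable two_pos'))⟩

/-- drop the first coordinate -/
noncomputable def tail (g : L2) : L2 :=
  ⟨fun n => g (n + 1), memℓp_gen ((summable_nat_add_iff (f := fun n => ‖g n‖ ^ (2 : ℝ≥0∞).toReal)
    1).2 ((lp.memℓp g).summable two_pos'))⟩

theorem cons_tail (g : L2) : cons (g 0) (tail g) = g := by
  ext n; cases n <;> rfl

theorem cons_sub (t t' : ℝ) (h h' : L2) : cons t h - cons t' h' = cons (t - t') (h - h') := by
  ext n; cases n <;> rfl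

theorem norm_cons (t : ℝ) (h : L2) : ‖cons t h‖ ^ 2 = t ^ 2 + ‖h‖ ^ 2 := by
  have h1 := lp.hasSum_norm two_pos' (cons t h)
  have h2 := (hasSum_nat_add_iff (f := fun n => ‖cons t h n‖ ^ (2 : ℝ≥0∞).toReal) 1).1
    (lp.hasSum_norm two_pos' h)
  have h3 := h1.unique h2
  simp only [ENNReal.toReal_ofNat, Real.rpow_ofNat, Finset.range_one, Finset.sum_singleton,
    Real.norm_eq_abs, sq_abs] at h3
  rw [h3, add_comm]; rfl

theorem norm_cons_le (t : ℝ) (h : L2) : ‖cons t h‖ ≤ |t| + ‖h‖ := by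
  refine abs_le_of_sq_le_sq' ?_ (by positivity) |>.2
  rw [norm_cons, add_sq, sq_abs]
  nlinarith [mul_nonneg (abs_nonneg t) (norm_nonneg h)]

theorem le_norm_cons (t : ℝ) (h : L2) : |t| ≤ ‖cons t h‖ ∧ ‖h‖ ≤ ‖cons t h‖ := by
  constructor
  · refine abs_le_of_sq_le_sq' ?_ (by positivity) |>.2
    rw [norm_cons, sq_abs]; nlinarith
  · refine abs_le_of_sq_le_sq' ?_ (by positivity) |>.2
    rw [norm_cons]; nlinarith

theorem exists_absorb : ∃ j : C₀(ℕ, L2) × C₀(ℕ, ℝ) → C₀(ℕ, L2), Function.Surjective j ∧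
    ∀ s t, ‖s - t‖ ≤ ‖j s - j t‖ ∧ ‖j s - j t‖ ≤ 2 * ‖s - t‖ := by
  let j : C₀(ℕ, L2) × C₀(ℕ, ℝ) → C₀(ℕ, L2) := fun s => mk0 (fun i => cons (s.2 i) (s.1 i))
    (squeeze_zero_norm (fun i => norm_cons_le _ _)
      (by simpa using (c0_tendsto s.2).abs.add (c0_tendsto s.1).norm))
  have hj : ∀ s t i, (j s - j t) i = cons (s.2 i - t.2 i) (s.1 i - t.1 i) := fun s t i =>
    cons_sub _ _ _ _
  refine ⟨j, fun g => ?_, fun s t => ⟨?_, ?_⟩⟩
  · have h1 : ∀ i, |g i 0| ≤ ‖g i‖ ∧ ‖tail (g i)‖ ≤ ‖g i‖ := fun i => by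
      have := le_norm_cons (g i 0) (tail (g i)); rwa [cons_tail] at this
    have h0 : Tendsto (fun i => ‖g i‖) atTop (𝓝 0) := by simpa using (c0_tendsto g).norm
    exact ⟨(mk0 (fun i => tail (g i)) (squeeze_zero_norm (fun i => (h1 i).2) h0),
      mk0 (fun i => g i 0) (squeeze_zero_norm (fun i => (h1 i).1) h0)),
      ZeroAtInftyContinuousMap.ext fun i => cons_tail _⟩
  · rw [Prod.norm_def]
    refine max_le (c0_norm_le _ (norm_nonneg _) fun i => ?_)
      (c0_norm_le _ (norm_nonneg _) fun i => ?_)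
    · exact (le_norm_cons (s.2 i - t.2 i) (s.1 i - t.1 i)).2.trans (hj s t i ▸ c0_apply_le _ i)
    · exact (le_norm_cons (s.2 i - t.2 i) (s.1 i - t.1 i)).1.trans (hj s t i ▸ c0_apply_le _ i)
  · refine c0_norm_le _ (by positivity) fun i => ?_
    rw [hj]
    have a1 := (c0_sub_le s.1 t.1 i).trans (norm_fst_le (s - t))
    have a2 := (c0_sub_le s.2 t.2 i).trans (norm_snd_le (s - t))
    rw [Real.norm_eq_abs] at a2
    linarith [norm_cons_le (s.2 i - t.2 i) (s.1 i - t.1 i)]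

end Crest.Agent.LE
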