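import Crest.Agent.LE.Bas
import Crest.Agent.LE.Dom

set_option autoImplicit false
open Filter Topology
open scoped ZeroAtInfty

namespace Crest.Agent.LE

/-- base point -/
noncomputable def oo : Pt := ⟨0, fun i => by simp⟩

theorem fin_cells (a c : ℤ) (R : ℝ) : {p : ℤ × List ℤ | a ≤ p.1 ∧ p.1 ≤ c ∧
    ∃ b : Pt, dev (pos p.1 b.1) p.2 < 2 ∧ ∀ j, (b.1 j).2 ≤ R}.Finite := by
  refine ((Set.finite_Icc a c).biUnion fun k _ => (Set.finite_singleton k).prod
    (cells_finite (coords (mm k)).length (100 * R / WW k))).subset ?_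
  rintro ⟨k, us⟩ ⟨h1, h2, b, h3, h4⟩
  refine Set.mem_biUnion (show k ∈ Set.Icc a c from ⟨h1, h2⟩) ⟨rfl, pos k b.1, by simp [pos], ?_, h3⟩
  intro t ht
  obtain ⟨ξ, hξ, rfl⟩ := List.mem_map.1 ht
  rw [abs_div, abs_of_pos (WW_pos k)]
  exact div_le_div_of_nonneg_right (coords_bd hξ b h4) (WW_pos k).le

theorem exists_params : ∃ π : Params SS L2, ∀ (i : ℕ) (k : ℤ) (us : List ℤ) (n0 : ℕ) (h : L2),
    ‖h‖ ≤ 1 → (fun b => inner ℝ (tr n0 h) (ee i k us b) / (101 / 100)) ∈ cls π := by
  classical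
  let s : ℕ → ℝ := fun n => 1 / (n.factorial : ℝ)
  have spos : ∀ n, 0 < s n := fun n => by have := n.factorial_pos; positivity
  have srat : Tendsto (fun n => s (n + 1) / s n) atTop (𝓝 0) := by
    refine tendsto_one_div_add_atTop_nhds_zero_nat.congr fun n => ?_
    have := n.factorial_pos
    simp only [s, Nat.factorial_succ]; push_cast; field_simp
  let rad : ℤ → ℝ := fun k => ((mm k : ℝ) + 1) * (4 * WW k)
  have hg : ∀ K : ℕ, ∃ g : ℕ, ∀ m, g ≤ m → K + 1 ≤ m ∧ rad (-(m : ℤ)) < s K := fun K => by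
    obtain ⟨g, hg⟩ := eventually_atTop.1 ((eventually_ge_atTop (K + 1)).and
      (rad_tendsto.eventually (gt_mem_nhds (spos K))))
    exact ⟨g, fun m hm => ⟨(hg m hm).1, by simpa [rad, mm] using (hg m hm).2⟩⟩
  choose g hg using hg
  let k0 : ℕ → ℕ := fun K => (Finset.range (K + 1)).sup g
  have k0m : Monotone k0 := fun a b h => Finset.sup_mono (Finset.range_mono (by omega))
  have hk0 : ∀ K, g K ≤ k0 K := fun K => Finset.le_sup (f := g) (by simp)
  let lev : ℤ → ℕ := fun k => Nat.findGreatest (fun n => rad k < s (n - 1)) (mm k)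
  have lev_spec : ∀ k n, lev k = n + 1 → n + 1 ≤ mm k ∧ rad k < s n := fun k n h =>
    ⟨h ▸ Nat.findGreatest_le _, Nat.findGreatest_of_ne_zero
      (P := fun n => rad k < s (n - 1)) h (by omega)⟩
  have lev_big : ∀ k K, lev k ≤ K → mm k < k0 K := fun k K h => by
    by_contra hc
    obtain ⟨h1, h2⟩ := hg K (mm k) ((hk0 K).trans (not_lt.1 hc))
    have e : -(mm k : ℤ) = k := by simp only [mm] at h1 ⊢; omega
    rw [e] at h2
    have : K + 1 ≤ lev k := Nat.le_findGreatest h1 h2
    omega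
  let Ex : ℤ → List ℤ → ℕ → Prop := fun k us n =>
    ∃ b : Pt, dev (pos k b.1) us < 2 ∧ ∀ j, (b.1 j).2 ≤ (n : ℝ) + 1
  let ctr : ℤ → List ℤ → ℕ → Pt := fun k us n => if h : Ex k us n then QQ n h.choose else oo
  let Cn : ℕ → Finset Pt := fun n => insert oo
    ((fin_cells (-(k0 (n + 1) : ℤ)) 0 ((n : ℝ) + 1)).toFinset.image fun p => ctr p.1 p.2 n)
  let 𝒦 : ℕ → ℕ → Set (Pt → ℝ) := fun K J => {fun _ => 0} ∪ {f | ∃ p ∈ Finset.range J ×ˢ
    (fin_cells (-(k0 K : ℤ)) (K + 3) ((K : ℝ) + 1)).toFinset, f ∈ {f | ∃ h : L2, ‖h‖ ≤ 1 ∧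
      f = fun b => inner ℝ h (ee p.1 p.2.1 p.2.2 (PP J b)) / (101 / 100)}}
  have h𝒦 : ∀ K J, Dom L2 (𝒦 K J) := fun K J => Dom.zero.union (Dom.biUnion _ _ fun p _ => by
    refine ⟨[fun b => ee p.1 p.2.1 p.2.2 (PP J b)], ?_, ?_⟩
    · intro A hA
      rw [List.mem_singleton.1 hA]
      exact ⟨101 / 100, _, by norm_num, fun x y => (ee_lip _ _ _ _ _).trans
        (mul_le_mul_of_nonneg_left (SS.Plip J x y) (by norm_num)), fun x => ee_bd _ _ _ _⟩
    · rintro f ⟨h, hh, rfl⟩ μ
      rw [pr_fdiv, pr_inner, abs_div]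
      have a1 := abs_real_inner_le_norm h (pr μ fun b => ee p.1 p.2.1 p.2.2 (PP J b))
      have a2 := norm_nonneg (pr μ fun b => ee p.1 p.2.1 p.2.2 (PP J b))
      simp only [List.map_cons, List.map_nil, List.sum_cons, List.sum_nil, add_zero]
      rw [div_le_iff₀ (by norm_num), abs_of_pos (by norm_num : (0 : ℝ) < 101 / 100)]
      nlinarith)
  let π : Params SS L2 :=
    { C := 1, s := s, R := fun K => (K : ℝ) + 1, Cn := Cn,
      ρ := fun K => Real.exp (20000 * (-(k0 K : ℝ) - 2)), J0 := k0,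
      D := fun K => 100 * TT (K + 3), K := 𝒦, C0 := zero_le_one, spos := spos, srat := srat,
      Rmono := fun a b h => by simpa using h,
      Rlim := tendsto_atTop_add_const_right _ _ tendsto_natCast_atTop_atTop,
      Rpos := fun K => by positivity, Cne := fun n => Finset.insert_nonempty _ _,
      ρpos := fun K => Real.exp_pos _,
      ρanti := fun a b h => by
        have : (k0 a : ℝ) ≤ k0 b := by exact_mod_cast k0m h
        simp only; gcongr
      J0mono := k0m,
      Dmono := fun a b h => by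
        have : (a : ℝ) ≤ b := by exact_mod_cast h
        simp only [TT]; push_cast; gcongr
      Dnn := fun K => by have := TT_pos (K + 3); positivity
      Kdom := h𝒦 }
  refine ⟨π, fun i k us n0 h hh => ?_⟩
  set f : Pt → ℝ := fun b => inner ℝ (tr n0 h) (ee i k us b) / (101 / 100) with hf
  have hh' : ‖tr n0 h‖ ≤ 1 := (tr_norm _ _).trans hh
  have f0 : ∀ b, ee i k us b = 0 → f b = 0 := fun b hb => by simp [hf, hb]
  have flip : ∀ x y, |f x - f y| ≤ dist x y := fun x y => by
    simp only [hf]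
    rw [← sub_div, ← inner_sub_right, abs_div, abs_of_pos (by norm_num : (0 : ℝ) < 101 / 100),
      div_le_iff₀ (by norm_num)]
    have a1 := abs_real_inner_le_norm (tr n0 h) (ee i k us x - ee i k us y)
    have a2 := ee_lip i k us x y
    nlinarith [norm_nonneg (ee i k us x - ee i k us y)]
  let far : ℕ → Prop := fun K => ∀ b, ee i k us b ≠ 0 → ∃ j, (K : ℝ) + 1 < (b.1 j).2
  let mid : ℕ → Pt → ℝ := fun K => if far K ∨ K < lev k then fun _ => 0 else f
  have hKf : ∃ Kf, lev k ≤ Kf ∧ ∀ K, Kf ≤ K → mid K = f := by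
    by_cases h0 : ∀ b, ee i k us b = 0
    · refine ⟨lev k, le_rfl, fun K _ => ?_⟩
      simp only [mid]; split_ifs
      · funext b; exact (f0 b (h0 b)).symm
      · rfl
    · push Not at h0
      obtain ⟨b, hb⟩ := h0
      obtain ⟨D, hD⟩ := (SS.τlim b).bddAbove_range
      refine ⟨max (lev k) ⌈D⌉₊, le_max_left _ _, fun K hK => if_neg ?_⟩
      rintro (h1 | h1)
      · obtain ⟨j, hj⟩ := h1 b hb
        have a1 : (b.1 j).2 ≤ D := hD ⟨j, rfl⟩
        have a2 : D ≤ K := Nat.ceil_le.1 ((le_max_right _ _).trans hK)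
        linarith
      · omega
  obtain ⟨Kf, hKf1, hKf⟩ := hKf
  refine ⟨fun n => if lev k = n + 1 then ctr k us n else oo, mid, Kf, flip, fun n => ?_,
    fun K => ?_, hKf, fun K b hne => ?_⟩
  · change _ ∈ Cn n
    simp only [Cn, ctr]
    split_ifs with h1 h2
    · refine Finset.mem_insert_of_mem (Finset.mem_image.2 ⟨(k, us), ?_, by rw [dif_pos h2]⟩)
      have a1 := (lev_spec k n h1).1
      have a2 := lev_big k (n + 1) h1.le
      rw [Set.Finite.mem_toFinset]
      simp only [mm] at a1 a2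
      exact ⟨by simp only; omega, by simp only; omega, h2⟩
    · exact Finset.mem_insert_self _ _
    · exact Finset.mem_insert_self _ _
  · simp only [mid]
    split_ifs with h1
    · exact ⟨fun x y => by simp [π], ⟨0, fun _ => rfl⟩, fun _ _ _ _ => rfl, fun J => Or.inl rfl,
        fun b => by simpa using π.Dnn K⟩
    push Not at h1
    obtain ⟨h1, h2⟩ := h1
    simp only [far] at h1
    push Not at h1
    obtain ⟨b0, hb0, hb0'⟩ := h1
    have hm := lev_big k K h2
    have hk1 : -(k0 K : ℤ) ≤ k := by simp only [mm] at hm; omega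
    have hk2 : k ≤ K + 3 := by
      have a1 := (ee_supp hb0).2.1.trans (hb0' i)
      have a2 := Real.add_one_le_exp (20000 * ((k : ℝ) - 2))
      have a3 : (0 : ℝ) ≤ K := Nat.cast_nonneg K
      have : (k : ℝ) ≤ K + 3 := by linarith
      exact_mod_cast this
    refine ⟨fun x y => by simpa [π] using flip x y, ⟨max (i + 1) (max (mm k) n0), fun b => ?_⟩,
      fun J b hJ hb => ?_, fun J => ?_, fun b => ?_⟩
    · simp only [hf]
      exact congrArg (· / (101 / 100 : ℝ)) (ee_Q (by omega) (by omega) (by omega) us h b)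
    · change k0 K ≤ J at hJ
      change ∀ j, J ≤ j → (b.1 j).2 < Real.exp (20000 * (-(k0 K : ℝ) - 2)) at hb
      change f (PP J b) = f b
      rcases lt_or_ge i J with hi | hi
      · simp only [hf]; rw [ee_P hi (by omega)]
      · rw [f0 _ (ee_P0 k hi us b), f0]
        by_contra hc
        have a1 := (ee_supp hc).2.1
        have a2 : (-(k0 K : ℝ)) ≤ k := by exact_mod_cast hk1
        have a3 : Real.exp (20000 * (-(k0 K : ℝ) - 2)) ≤ Real.exp (20000 * ((k : ℝ) - 2)) := by
          gcongr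
        linarith [hb i hi]
    · change (fun b => f (PP J b)) ∈ 𝒦 K J
      rcases lt_or_ge i J with hi | hi
      · refine Or.inr ⟨(i, k, us), ?_, tr n0 h, hh', rfl⟩
        rw [Finset.mem_product, Finset.mem_range, Set.Finite.mem_toFinset]
        exact ⟨hi, hk1, hk2, b0, (ee_supp hb0).2.2, hb0'⟩
      · exact Or.inl (funext fun b => f0 _ (ee_P0 k hi us b))
    · change |f b| ≤ 100 * TT (K + 3)
      simp only [hf]
      rw [abs_div, abs_of_pos (by norm_num : (0 : ℝ) < 101 / 100), div_le_iff₀ (by norm_num)]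
      have a1 := abs_real_inner_le_norm (tr n0 h) (ee i k us b)
      have a2 := ee_bd i k us b
      have a3 : TT k ≤ TT (K + 3) := by
        have : (k : ℝ) ≤ ((K + 3 : ℤ) : ℝ) := by exact_mod_cast hk2
        simp only [TT]; gcongr
      have := TT_pos (K + 3)
      nlinarith [norm_nonneg (ee i k us b)]
  · change (∃ j, (K : ℝ) + 1 < (b.1 j).2) ∨ ∃ n, K ≤ n ∧ n < Kf ∧
      dist (QQ n b) (if lev k = n + 1 then ctr k us n else oo) < s n
    simp only [mid] at hne
    split_ifs at hne with h1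
    swap
    · exact absurd rfl hne
    have hb : ee i k us b ≠ 0 := fun h0 => hne (f0 b h0)
    rcases h1 with h1 | h1
    · exact Or.inl (h1 b hb)
    obtain ⟨n, hn⟩ : ∃ n, lev k = n + 1 := ⟨lev k - 1, by omega⟩
    obtain ⟨a1, a2⟩ := lev_spec k n hn
    by_cases hE : Ex k us n
    · refine Or.inr ⟨n, by omega, by omega, ?_⟩
      rw [if_pos hn]
      simp only [ctr, dif_pos hE]
      refine lt_of_le_of_lt (coords_loc (m := mm k) (by omega) _ _
        (show 0 ≤ 4 * WW k by have := WW_pos k; positivity) fun ξ hξ => ?_) a2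
      have := dev_close _ _ _ us (ee_supp hb).2.2 hE.choose_spec.1 ξ hξ
      rwa [← sub_div, abs_div, abs_of_pos (WW_pos k), div_le_iff₀ (WW_pos k)] at this
    · left
      by_contra hc
      push Not at hc
      have : (K : ℝ) ≤ n := by exact_mod_cast (show K ≤ n by omega)
      exact hE ⟨b, (ee_supp hb).2.2, fun j => by linarith [hc j]⟩

end Crest.Agent.LE
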