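import Crest.Agent.LE.Esc

set_option autoImplicit false
open Filter Topology Finset

namespace Crest.Agent.LE

variable {X : Type} [MetricSpace X]
variable {S : Setup X} {H : Type} [NormedAddCommGroup H] [InnerProductSpace ℝ H]

theorem one_lt_lam (n : ℕ) : (1 : ℝ) < ((n : ℝ) + 2) ^ 2 := by
  have : (0 : ℝ) ≤ n := Nat.cast_nonneg n
  nlinarith

/-- radial collapse at level `n` -/
noncomputable def rho (π : Params S H) (c : X) (n : ℕ) (b : X) : X :=
  (S.rad c (2 * π.s n) (((n : ℝ) + 2) ^ 2) (mul_pos two_pos (π.spos n)) (one_lt_lam n)).choose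
    (S.Q n b)

theorem rho_spec (π : Params S H) (c : X) (n : ℕ) :
    (∀ x y, dist (rho π c n x) (rho π c n y) ≤
      ((n : ℝ) + 2) ^ 2 / (((n : ℝ) + 2) ^ 2 - 1) * dist x y) ∧
    (∀ x, dist (S.Q n x) c ≤ 2 * π.s n → rho π c n x = c) ∧
    (∀ x, ((n : ℝ) + 2) ^ 2 * (2 * π.s n) ≤ dist (S.Q n x) c → rho π c n x = S.Q n x) ∧
    (∀ x, dist (rho π c n x) (S.Q n x) ≤ 2 * π.s n) ∧
    ∀ x, rho π c n (S.Q n x) = rho π c n x := by
  obtain ⟨h1, h2, h3, h4⟩ := (S.rad c (2 * π.s n) (((n : ℝ) + 2) ^ 2)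
    (mul_pos two_pos (π.spos n)) (one_lt_lam n)).choose_spec
  refine ⟨fun x y => (h1 _ _).trans ?_, fun x => h2 _, fun x => h3 _, fun x => h4 _, fun x => ?_⟩
  · have := one_lt_lam n
    exact mul_le_mul_of_nonneg_left (S.Qlip n x y) (div_nonneg (by positivity) (by linarith))
  · unfold rho; rw [S.QQ _ _ _ le_rfl]

/-- chain of collapses on levels `[m, p)` -/
noncomputable def Th (π : Params S H) (cc : ℕ → X) (m : ℕ) : ℕ → X → X
  | 0 => fun b => b
  | p + 1 => fun b => if m ≤ p then Th π cc m p (rho π (cc p) p b) else b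

variable (π : Params S H) (cc : ℕ → X)

theorem Th_succ {m p : ℕ} (h : m ≤ p) (b : X) :
    Th π cc m (p + 1) b = Th π cc m p (rho π (cc p) p b) := by
  simp [Th, h]

theorem Th_le {m p : ℕ} (h : p ≤ m) (b : X) : Th π cc m p b = b := by
  cases p with
  | zero => rfl
  | succ p => simp [Th, show ¬ m ≤ p by omega]

theorem Th_lip' (m p : ℕ) (x y : X) :
    dist (Th π cc m p x) (Th π cc m p y) ≤ 2 * ((p : ℝ) + 1) / (p + 2) * dist x y := by
  induction p generalizing x y with
  | zero => simp [Th]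
  | succ p ih =>
    have hp : (0 : ℝ) ≤ p := Nat.cast_nonneg p
    rcases le_or_gt m p with h | h
    · rw [Th_succ π cc h, Th_succ π cc h]
      refine (ih _ _).trans ?_
      refine (mul_le_mul_of_nonneg_left ((rho_spec π (cc p) p).1 x y) (by positivity)).trans ?_
      rw [← mul_assoc]
      refine mul_le_mul_of_nonneg_right (le_of_eq ?_) dist_nonneg
      have : ((p : ℝ) + 2) ^ 2 - 1 = (p + 1) * (p + 3) := by ring
      rw [this]; push_cast; field_simp; ring
    · rw [Th_le π cc h, Th_le π cc h]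
      refine le_mul_of_one_le_left dist_nonneg ?_
      rw [le_div_iff₀ (by positivity)]; push_cast; linarith

theorem Th_lip (m p : ℕ) (x y : X) : dist (Th π cc m p x) (Th π cc m p y) ≤ 2 * dist x y := by
  refine (Th_lip' π cc m p x y).trans (mul_le_mul_of_nonneg_right ?_ dist_nonneg)
  rw [div_le_iff₀ (by positivity)]; linarith

theorem rho_disp {n p : ℕ} (h : n ≤ p) (c b : X) :
    dist (S.Q n (rho π c p b)) (S.Q n b) ≤ 2 * π.s p := by
  rw [← S.QQ n p b h]
  exact (S.Qlip _ _ _).trans ((rho_spec π c p).2.2.2.1 b)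

theorem Th_disp {n m : ℕ} (h : n ≤ m) (p : ℕ) (b : X) :
    dist (S.Q n (Th π cc m p b)) (S.Q n b) ≤ ∑ i ∈ Ico m p, 2 * π.s i := by
  induction p generalizing b with
  | zero => simp [Th]
  | succ p ih =>
    rcases le_or_gt m p with h1 | h1
    · rw [Th_succ π cc h1, Finset.sum_Ico_succ_top h1]
      exact (dist_triangle _ _ _).trans (add_le_add (ih _) (rho_disp π (h.trans h1) _ _))
    · rw [Th_le π cc h1, dist_self]
      exact Finset.sum_nonneg fun i _ => (mul_pos two_pos (π.spos i)).le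

theorem Th_dep {t : X → ℝ} {m : ℕ} (ht : ∀ b, t (S.Q m b) = t b) {p : ℕ} (hp : m ≤ p) (b : X) :
    t (Th π cc m p (S.Q p b)) = t (Th π cc m p b) := by
  rcases eq_or_lt_of_le hp with rfl | h
  · rw [Th_le π cc le_rfl, Th_le π cc le_rfl, ht]
  · obtain ⟨p, rfl⟩ : ∃ q, p = q + 1 := ⟨p - 1, by omega⟩
    rw [Th_succ π cc (by omega), Th_succ π cc (by omega), ← (rho_spec π (cc p) p).2.2.2.2,
      S.QQ _ _ _ (by omega), (rho_spec π (cc p) p).2.2.2.2]

theorem Th_agree {t : X → ℝ} {m : ℕ} (ht : ∀ b, t (S.Q m b) = t b) {p p' : ℕ} (hp : m ≤ p)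
    (hp' : p ≤ p') (b : X)
    (h : ∀ n, p ≤ n → n < p' → ((n : ℝ) + 2) ^ 2 * (2 * π.s n) ≤ dist (S.Q n b) (cc n)) :
    t (Th π cc m p' b) = t (Th π cc m p b) := by
  induction p', hp' using Nat.le_induction with
  | base => rfl
  | succ p' hp' ih =>
    rw [Th_succ π cc (hp.trans hp'), (rho_spec π (cc p') p').2.2.1 b (h p' hp' (by omega)),
      Th_dep π cc ht (hp.trans hp'), ih fun n h1 h2 => h n h1 (by omega)]

theorem Th_const {m n p : ℕ} (hm : m ≤ n) (hp : n + 1 ≤ p) (b : X)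
    (h : dist (S.Q n b) (cc n) + ∑ i ∈ Ico (n + 1) p, 2 * π.s i ≤ 2 * π.s n) :
    Th π cc m p b = Th π cc m n (cc n) := by
  induction p, hp using Nat.le_induction generalizing b with
  | base =>
    rw [Th_succ π cc hm, (rho_spec π (cc n) n).2.1 b (by simpa using h)]
  | succ p hp ih =>
    rw [Th_succ π cc (by omega)]
    apply ih
    rw [Finset.sum_Ico_succ_top hp] at h
    have := dist_triangle (S.Q n (rho π (cc p) p b)) (S.Q n b) (cc n)
    have := rho_disp π (show n ≤ p by omega) (cc p) b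
    linarith

theorem Th_dom {K : Set (X → ℝ)} (hK : Dom H K) (p : ℕ) :
    Dom H {g | ∃ t ∈ K, ∃ cc : ℕ → X, (∀ n, cc n ∈ π.Cn n) ∧ ∃ m,
      g = fun b => t (Th π cc m p b)} := by
  induction p with
  | zero =>
    refine hK.mono ?_
    rintro g ⟨t, ht, cc, -, m, rfl⟩; exact ht
  | succ p ih =>
    have h1 := one_lt_lam p
    refine (hK.union (Dom.biUnion (π.Cn p) _ fun c _ => ih.comp (rho π c p) _
      (div_pos (by positivity) (by linarith)) (rho_spec π c p).1)).mono ?_
    rintro g ⟨t, ht, cc, hcc, m, rfl⟩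
    rcases le_or_gt m p with h | h
    · refine Or.inr ⟨cc p, hcc p, _, ⟨t, ht, cc, hcc, m, rfl⟩, ?_⟩
      funext b; rw [Th_succ π cc h]
    · left
      have : (fun b => t (Th π cc m (p + 1) b)) = t := by funext b; rw [Th_le π cc h]
      rw [this]; exact ht

/-- lacunarity threshold -/
def Lac (n0 : ℕ) : Prop := ∀ n, n0 ≤ n → π.s (n + 1) ≤ π.s n / 16 ∧ π.s n ≤ π.R n

theorem s_tendsto : Tendsto π.s atTop (𝓝 0) := by
  have h : ∀ᶠ n in atTop, ‖π.s (n + 1)‖ ≤ 1 / 2 * ‖π.s n‖ := by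
    filter_upwards [π.srat.eventually (gt_mem_nhds (show (0 : ℝ) < 1 / 2 by norm_num))] with n hn
    rw [div_lt_iff₀ (π.spos n)] at hn
    rw [Real.norm_of_nonneg (π.spos _).le, Real.norm_of_nonneg (π.spos _).le]; exact hn.le
  exact (summable_of_ratio_norm_eventually_le (by norm_num) h).tendsto_atTop_zero

theorem exists_lac : ∃ n0, Lac π n0 := by
  have h1 := π.srat.eventually (gt_mem_nhds (show (0 : ℝ) < 1 / 16 by norm_num))
  have h2 := (s_tendsto π).eventually (gt_mem_nhds (show (0 : ℝ) < 1 by norm_num))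
  have h3 := π.Rlim.eventually (eventually_ge_atTop 1)
  obtain ⟨n0, h⟩ := eventually_atTop.1 (h1.and (h2.and h3))
  refine ⟨n0, fun n hn => ?_⟩
  obtain ⟨a, b, c⟩ := h n hn
  rw [div_lt_iff₀ (π.spos n)] at a
  constructor <;> linarith

variable {π}

theorem Lac.anti {n0 : ℕ} (h : Lac π n0) {i j : ℕ} (hi : n0 ≤ i) (hij : i ≤ j) :
    π.s j ≤ π.s i := by
  induction j, hij using Nat.le_induction with
  | base => rfl
  | succ j hj ih =>
    have := (h j (hi.trans hj)).1
    have := π.spos j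
    linarith

theorem Lac.sum {n0 : ℕ} (h : Lac π n0) {n : ℕ} (hn : n0 ≤ n) (p : ℕ) :
    ∑ i ∈ Ico (n + 1) p, 2 * π.s i ≤ π.s n / 4 := by
  have key : ∀ k, ∑ i ∈ Ico (n + 1) (n + 1 + k), 2 * π.s i + π.s (n + k) / 4 ≤ π.s n / 4 := by
    intro k
    induction k with
    | zero => simp
    | succ k ih =>
      rw [← add_assoc, Finset.sum_Ico_succ_top (by omega)]
      have := (h (n + k) (by omega)).1
      have e1 : n + 1 + k = n + k + 1 := by omega
      have e2 : n + (k + 1) = n + k + 1 := by omega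
      rw [e2]; rw [e1] at ih ⊢
      have := π.spos (n + k)
      linarith
  rcases le_or_gt p (n + 1) with hp | hp
  · rw [Finset.Ico_eq_empty (by omega)]; simp; have := π.spos n; positivity
  · obtain ⟨k, rfl⟩ : ∃ k, p = n + 1 + k := ⟨p - (n + 1), by omega⟩
    have := key k
    have := π.spos (n + k)
    linarith

end Crest.Agent.LE
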